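import Crest.Agent.MC.Defs

/-!
# S0171, piece P2: one-step facts about `mm`, `rho`, `QQ`, `ZZ` and the one-step bound on `delta`
-/

set_option autoImplicit false

namespace Crest.Agent.MC

open Finset

variable {ι σ : Type*} [Fintype ι] [DecidableEq ι] [Fintype σ]

theorem pow_nonneg_entry (A : Matrix ι ι ℝ) (hA : ∀ i j, 0 ≤ A i j) (r : ℕ) (i j : ι) :
    0 ≤ (A ^ r) i j := by
  induction r generalizing i j with
  | zero =>
    rw [pow_zero, Matrix.one_apply]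
    split_ifs <;> norm_num
  | succ r ih =>
    rw [pow_succ, Matrix.mul_apply]
    exact Finset.sum_nonneg fun k _ => mul_nonneg (ih i k) (hA k j)

theorem pow_row_sum (A : Matrix ι ι ℝ) (hA1 : ∀ i, ∑ j, A i j = 1) (r : ℕ) (i : ι) :
    ∑ j, (A ^ r) i j = 1 := by
  induction r generalizing i with
  | zero =>
    simp [Matrix.one_apply]
  | succ r ih =>
    simp only [pow_succ, Matrix.mul_apply]
    rw [Finset.sum_comm]
    simp only [← Finset.mul_sum, hA1, mul_one]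
    exact ih i

namespace StepAux

/-- One step of the chain applied to an arbitrary function. -/
theorem pow_succ_sum (A : Matrix ι ι ℝ) (f : ι → ℝ) (r : ℕ) (j : ι) :
    ∑ l, (A ^ (r + 1)) j l * f l = ∑ l, A j l * ∑ k, (A ^ r) l k * f k := by
  simp only [pow_succ', Matrix.mul_apply, Finset.sum_mul, Finset.mul_sum]
  rw [Finset.sum_comm]
  refine Finset.sum_congr rfl fun l _ => Finset.sum_congr rfl fun k _ => ?_
  ring

end StepAux

theorem mm_succ (A : Matrix ι ι ℝ) (c : σ → ι → ℝ) (r : ℕ) (j : ι) (s : σ) :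
    mm A c (r + 1) j s = ∑ l, A j l * mm A c r l s :=
  StepAux.pow_succ_sum A (c s) r j

theorem mm_mem (A : Matrix ι ι ℝ) (hA : ∀ i j, 0 ≤ A i j) (hA1 : ∀ i, ∑ j, A i j = 1)
    (c : σ → ι → ℝ) (hc : ∀ s i, c s i = 0 ∨ c s i = 1) (r : ℕ) (j : ι) (s : σ) :
    0 ≤ mm A c r j s ∧ mm A c r j s ≤ 1 := by
  have h0 := pow_nonneg_entry A hA r j
  have h1 := pow_row_sum A hA1 r j
  constructor
  · exact Finset.sum_nonneg fun l _ => mul_nonneg (h0 l)
      (by rcases hc s l with h | h <;> rw [h] <;> norm_num)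
  · calc mm A c r j s = ∑ l, (A ^ r) j l * c s l := rfl
      _ ≤ ∑ l, (A ^ r) j l * 1 := Finset.sum_le_sum fun l _ =>
          mul_le_mul_of_nonneg_left (by rcases hc s l with h | h <;> rw [h] <;> norm_num) (h0 l)
      _ = 1 := by simp [h1]

theorem ZZ_succ (A : Matrix ι ι ℝ) (ν : σ → ℝ) (c : σ → ι → ℝ) (c₀ : ι) (r : ℕ) (j : ι) :
    ZZ A ν c c₀ (r + 1) j = ∑ l, A j l * ZZ A ν c c₀ r l :=
  StepAux.pow_succ_sum A (DD ν c c₀) r j

theorem ZZ2_succ (A : Matrix ι ι ℝ) (ν : σ → ℝ) (c : σ → ι → ℝ) (c₀ : ι) (r : ℕ) (j : ι) :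
    ZZ2 A ν c c₀ (r + 1) j = ∑ l, A j l * ZZ2 A ν c c₀ r l :=
  StepAux.pow_succ_sum A (fun l => DD ν c c₀ l ^ 2) r j

theorem ZZ_zero_sq (A : Matrix ι ι ℝ) (ν : σ → ℝ) (c : σ → ι → ℝ) (c₀ : ι) (j : ι) :
    ZZ A ν c c₀ 0 j ^ 2 ≤ ZZ2 A ν c c₀ 0 j := by
  simp [ZZ, ZZ2, Matrix.one_apply]

theorem rho_zero (A : Matrix ι ι ℝ) (ν : σ → ℝ) (c : σ → ι → ℝ)
    (hc : ∀ s i, c s i = 0 ∨ c s i = 1) (j : ι) : rho A ν c 0 j = 0 := by
  have hm : ∀ s, mm A c 0 j s = c s j := by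
    intro s
    simp [mm, Matrix.one_apply]
  unfold rho
  apply Finset.sum_eq_zero
  intro s _
  rw [hm]
  rcases hc s j with h | h <;> rw [h] <;> ring

/-- Variance decomposition: the drift of the potential `rho` is the quadratic variation `QQ`. -/
theorem rho_succ (A : Matrix ι ι ℝ) (hA1 : ∀ i, ∑ j, A i j = 1) (ν : σ → ℝ) (c : σ → ι → ℝ)
    (r : ℕ) (j : ι) :
    rho A ν c (r + 1) j = ∑ l, A j l * (QQ A ν c r j l + rho A ν c r l) := by
  have key : ∀ s, mm A c (r + 1) j s * (1 - mm A c (r + 1) j s) =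
      ∑ l, A j l * ((mm A c r l s - mm A c (r + 1) j s) ^ 2 +
        mm A c r l s * (1 - mm A c r l s)) := by
    intro s
    have h1 := mm_succ A c r j s
    have e : ∀ l, A j l * ((mm A c r l s - mm A c (r + 1) j s) ^ 2 +
        mm A c r l s * (1 - mm A c r l s)) =
        mm A c (r + 1) j s ^ 2 * A j l - 2 * mm A c (r + 1) j s * (A j l * mm A c r l s) +
          A j l * mm A c r l s := by
      intro l; ring
    simp only [e]
    rw [Finset.sum_add_distrib, Finset.sum_sub_distrib, ← Finset.mul_sum, ← Finset.mul_sum,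
      hA1, ← h1]
    ring
  have lhs : rho A ν c (r + 1) j = ∑ s, ∑ l, ν s * (A j l *
      ((mm A c r l s - mm A c (r + 1) j s) ^ 2 + mm A c r l s * (1 - mm A c r l s))) := by
    unfold rho
    refine Finset.sum_congr rfl fun s _ => ?_
    rw [key s, Finset.mul_sum]
  have rhs : ∀ l, A j l * (QQ A ν c r j l + rho A ν c r l) = ∑ s, ν s * (A j l *
      ((mm A c r l s - mm A c (r + 1) j s) ^ 2 + mm A c r l s * (1 - mm A c r l s))) := by
    intro l
    unfold QQ rho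
    rw [← Finset.sum_add_distrib, Finset.mul_sum]
    refine Finset.sum_congr rfl fun s _ => ?_
    ring
  rw [lhs, Finset.sum_comm]
  exact Finset.sum_congr rfl fun l _ => (rhs l).symm

namespace StepAux

/-- The distance from a `{0,1}`-valued level to the mean of a `{0,1}`-valued function is the mean
of the distances. -/
theorem abs_sub_mm (A : Matrix ι ι ℝ) (hA : ∀ i j, 0 ≤ A i j) (hA1 : ∀ i, ∑ j, A i j = 1)
    (c : σ → ι → ℝ) (hc : ∀ s i, c s i = 0 ∨ c s i = 1) (c₀ : ι) (r : ℕ) (j : ι) (s : σ) :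
    |c s c₀ - mm A c r j s| = ∑ l, (A ^ r) j l * |c s c₀ - c s l| := by
  have h1 := pow_row_sum A hA1 r j
  have hm := mm_mem A hA hA1 c hc r j s
  rcases hc s c₀ with h | h
  · rw [h]
    simp only [zero_sub, abs_neg]
    rw [abs_of_nonneg hm.1]
    unfold mm
    refine Finset.sum_congr rfl fun l _ => ?_
    rcases hc s l with h' | h' <;> rw [h'] <;> simp
  · rw [h]
    rw [abs_of_nonneg (by linarith [hm.2])]
    have : (1 : ℝ) - mm A c r j s = ∑ l, (A ^ r) j l * (1 - c s l) := by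
      simp only [mul_sub, mul_one, Finset.sum_sub_distrib, h1]
      rfl
    rw [this]
    refine Finset.sum_congr rfl fun l _ => ?_
    rcases hc s l with h' | h' <;> rw [h'] <;> simp

theorem sum_abs_sub_mm (A : Matrix ι ι ℝ) (hA : ∀ i j, 0 ≤ A i j) (hA1 : ∀ i, ∑ j, A i j = 1)
    (ν : σ → ℝ) (c : σ → ι → ℝ) (hc : ∀ s i, c s i = 0 ∨ c s i = 1) (c₀ : ι) (r : ℕ) (j : ι) :
    ∑ s, ν s * |c s c₀ - mm A c r j s| = ZZ A ν c c₀ r j := by
  unfold ZZ DD
  simp only [abs_sub_mm A hA hA1 c hc c₀ r j, Finset.mul_sum]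
  rw [Finset.sum_comm]
  refine Finset.sum_congr rfl fun l _ => Finset.sum_congr rfl fun s _ => ?_
  ring

end StepAux

theorem rho_le_ZZ (A : Matrix ι ι ℝ) (hA : ∀ i j, 0 ≤ A i j) (hA1 : ∀ i, ∑ j, A i j = 1)
    (ν : σ → ℝ) (hν : ∀ s, 0 ≤ ν s) (c : σ → ι → ℝ) (hc : ∀ s i, c s i = 0 ∨ c s i = 1)
    (c₀ : ι) (r : ℕ) (j : ι) : rho A ν c r j ≤ ZZ A ν c c₀ r j := by
  rw [← StepAux.sum_abs_sub_mm A hA hA1 ν c hc c₀ r j]
  unfold rho
  refine Finset.sum_le_sum fun s _ => mul_le_mul_of_nonneg_left ?_ (hν s)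
  have hm := mm_mem A hA hA1 c hc r j s
  rcases hc s c₀ with h | h
  · rw [h, zero_sub, abs_neg, abs_of_nonneg hm.1]
    nlinarith [sq_nonneg (mm A c r j s)]
  · rw [h, abs_of_nonneg (by linarith [hm.2])]
    nlinarith [sq_nonneg (1 - mm A c r j s)]

theorem QQ_nonneg (A : Matrix ι ι ℝ) (ν : σ → ℝ) (hν : ∀ s, 0 ≤ ν s) (c : σ → ι → ℝ)
    (r : ℕ) (j l : ι) : 0 ≤ QQ A ν c r j l :=
  Finset.sum_nonneg fun s _ => mul_nonneg (hν s) (sq_nonneg _)

theorem QQ_le (A : Matrix ι ι ℝ) (hA : ∀ i j, 0 ≤ A i j) (hA1 : ∀ i, ∑ j, A i j = 1)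
    (ν : σ → ℝ) (hν : ∀ s, 0 ≤ ν s) (c : σ → ι → ℝ) (hc : ∀ s i, c s i = 0 ∨ c s i = 1)
    (c₀ : ι) (r : ℕ) (j l : ι) :
    QQ A ν c r j l ≤ ZZ A ν c c₀ (r + 1) j + ZZ A ν c c₀ r l := by
  rw [← StepAux.sum_abs_sub_mm A hA hA1 ν c hc c₀ (r + 1) j,
    ← StepAux.sum_abs_sub_mm A hA hA1 ν c hc c₀ r l, ← Finset.sum_add_distrib]
  unfold QQ
  refine Finset.sum_le_sum fun s _ => ?_
  rw [← mul_add]
  refine mul_le_mul_of_nonneg_left ?_ (hν s)
  have ha := mm_mem A hA hA1 c hc r l s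
  have hb := mm_mem A hA hA1 c hc (r + 1) j s
  have h1 : (mm A c r l s - mm A c (r + 1) j s) ^ 2 ≤ |mm A c r l s - mm A c (r + 1) j s| := by
    have h3 : |mm A c r l s - mm A c (r + 1) j s| ≤ 1 := by
      rw [abs_le]
      constructor <;> linarith [ha.1, ha.2, hb.1, hb.2]
    rw [← sq_abs]
    nlinarith [abs_nonneg (mm A c r l s - mm A c (r + 1) j s)]
  have h2 : |mm A c r l s - mm A c (r + 1) j s| ≤
      |c s c₀ - mm A c (r + 1) j s| + |c s c₀ - mm A c r l s| := by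
    have h4 := abs_sub_le (mm A c r l s) (c s c₀) (mm A c (r + 1) j s)
    rw [abs_sub_comm (mm A c r l s) (c s c₀)] at h4
    linarith
  linarith

end Crest.Agent.MC
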