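import Crest.Agent.MC.Defs
import Crest.Agent.MC.Step

/-!
# S0171, piece P3b: the first term `∑ w d(x, y)^2 ≤ (16/9) R`
-/

set_option autoImplicit false

namespace Crest.Agent.MC

open Finset

namespace Aux

variable {ι σ : Type*} [Fintype ι] [DecidableEq ι] [Fintype σ]

private lemma ft_psi_nonneg (p : ℝ) : 0 ≤ psi p := le_max_left _ _

private lemma ft_psi_le_one (p : ℝ) : psi p ≤ 1 := max_le (by norm_num) (min_le_left _ _)

private lemma ft_psi_le (m : ℝ) (hm0 : 0 ≤ m) : psi m ≤ 4 / 3 * m := by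
  unfold psi
  refine max_le (by linarith) ?_
  rcases le_total m (3 / 4) with h | h
  · exact (min_le_right _ _).trans (by linarith)
  · exact (min_le_left _ _).trans (by linarith)

private lemma ft_one_sub_psi_le (m : ℝ) (hm1 : m ≤ 1) : 1 - psi m ≤ 4 / 3 * (1 - m) := by
  unfold psi
  rcases le_total m (1 / 4) with h | h
  · have := le_max_left 0 (min 1 (2 * m - 1 / 2)); linarith
  · have h1 : (4 * m - 1) / 3 ≤ min 1 (2 * m - 1 / 2) := le_min (by linarith) (by linarith)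
    have := le_max_right 0 (min 1 (2 * m - 1 / 2)); linarith

omit [DecidableEq ι] in
private lemma ft_jensen_sq (p d : ι → ℝ) (hp : ∀ l, 0 ≤ p l) (hp1 : ∑ l, p l = 1) :
    (∑ l, p l * d l) ^ 2 ≤ ∑ l, p l * d l ^ 2 := by
  have h : 0 ≤ ∑ l, p l * (d l - ∑ l', p l' * d l') ^ 2 :=
    Finset.sum_nonneg (fun l _ => mul_nonneg (hp l) (sq_nonneg _))
  have h2 : ∀ E : ℝ, ∑ l, p l * (d l - E) ^ 2 =
      ∑ l, p l * d l ^ 2 - 2 * E * (∑ l, p l * d l) + E ^ 2 := by
    intro E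
    have h3 : ∀ l, p l * (d l - E) ^ 2 = p l * d l ^ 2 - 2 * E * (p l * d l) + E ^ 2 * p l := by
      intro l; ring
    simp_rw [h3]
    rw [Finset.sum_add_distrib, Finset.sum_sub_distrib, ← Finset.mul_sum, ← Finset.mul_sum, hp1]
    ring
  rw [h2] at h
  nlinarith

/-- one cut: `|c - ψ(m)| ≤ (4/3) E|c - c(X_r)|` -/
private lemma ft_abs_c_sub_psi_le (A : Matrix ι ι ℝ) (hA : ∀ i j, 0 ≤ A i j)
    (hA1 : ∀ i, ∑ j, A i j = 1) (c : σ → ι → ℝ) (hc : ∀ s i, c s i = 0 ∨ c s i = 1)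
    (r : ℕ) (i : ι) (s : σ) :
    |c s i - psi (mm A c r i s)| ≤ 4 / 3 * ∑ l, (A ^ r) i l * |c s i - c s l| := by
  have hm := mm_mem A hA hA1 c hc r i s
  have hrow := pow_row_sum A hA1 r i
  rcases hc s i with h0 | h1
  · rw [h0, zero_sub, abs_neg, abs_of_nonneg (ft_psi_nonneg _)]
    refine (ft_psi_le _ hm.1).trans (le_of_eq ?_)
    congr 1
    unfold mm
    refine Finset.sum_congr rfl (fun l _ => ?_)
    rcases hc s l with h | h <;> simp [h]
  · rw [h1, abs_of_nonneg (sub_nonneg.mpr (ft_psi_le_one _))]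
    refine (ft_one_sub_psi_le _ hm.2).trans (le_of_eq ?_)
    congr 1
    have h2 : (1:ℝ) - mm A c r i s = ∑ l, (A ^ r) i l * (1 - c s l) := by
      unfold mm
      simp_rw [mul_sub, mul_one]
      rw [Finset.sum_sub_distrib, hrow]
    rw [h2]
    refine Finset.sum_congr rfl (fun l _ => ?_)
    rcases hc s l with h | h <;> simp [h]

private lemma ft_dnu_phiR_le (A : Matrix ι ι ℝ) (hA : ∀ i j, 0 ≤ A i j)
    (hA1 : ∀ i, ∑ j, A i j = 1) (ν : σ → ℝ) (hν : ∀ s, 0 ≤ ν s)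
    (c : σ → ι → ℝ) (hc : ∀ s i, c s i = 0 ∨ c s i = 1) (r : ℕ) (i : ι) :
    dnu ν (fun s => c s i) (phiR A c r i) ≤ 4 / 3 * ∑ l, (A ^ r) i l * DD ν c i l := by
  unfold dnu DD phiR
  calc ∑ s, ν s * |c s i - psi (mm A c r i s)|
      ≤ ∑ s, ν s * (4 / 3 * ∑ l, (A ^ r) i l * |c s i - c s l|) :=
        Finset.sum_le_sum (fun s _ => mul_le_mul_of_nonneg_left
          (ft_abs_c_sub_psi_le A hA hA1 c hc r i s) (hν s))
    _ = 4 / 3 * ∑ l, (A ^ r) i l * ∑ s, ν s * |c s i - c s l| := by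
        simp_rw [Finset.mul_sum]
        rw [Finset.sum_comm]
        refine Finset.sum_congr rfl (fun l _ => Finset.sum_congr rfl (fun s _ => ?_))
        ring

private lemma ft_dnu_phi_le (A : Matrix ι ι ℝ) (ν : σ → ℝ) (hν : ∀ s, 0 ≤ ν s)
    (c : σ → ι → ℝ) (t : ℕ) (ht : 1 ≤ t) (i : ι) :
    dnu ν (fun s => c s i) (phi A c t i) ≤
      (1 / (t:ℝ)) * ∑ r ∈ range t, (dnu ν (fun s => c s i) (phiR A c r i) +
        dnu ν (fun s => c s i) (phiR A c (r + 1) i)) / 2 := by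
  have ht0 : (0:ℝ) < t := by exact_mod_cast ht
  have hpt : ∀ s, |c s i - phi A c t i s| ≤ (1 / (t:ℝ)) * ∑ r ∈ range t,
      (|c s i - phiR A c r i s| + |c s i - phiR A c (r + 1) i s|) / 2 := by
    intro s
    have h1 : c s i - phi A c t i s = (1 / (t:ℝ)) * ∑ r ∈ range t,
        ((c s i - phiR A c r i s) + (c s i - phiR A c (r + 1) i s)) / 2 := by
      unfold phi
      have h2 : ∀ r, ((c s i - phiR A c r i s) + (c s i - phiR A c (r + 1) i s)) / 2 =
          c s i - (phiR A c r i s + phiR A c (r + 1) i s) / 2 := by intro r; ring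
      simp_rw [h2]
      rw [Finset.sum_sub_distrib, Finset.sum_const, Finset.card_range, nsmul_eq_mul, mul_sub]
      field_simp
    rw [h1, abs_mul, abs_of_nonneg (by positivity)]
    refine mul_le_mul_of_nonneg_left ?_ (by positivity)
    refine (Finset.abs_sum_le_sum_abs _ _).trans (Finset.sum_le_sum (fun r _ => ?_))
    rw [abs_div, abs_two]
    exact div_le_div_of_nonneg_right (abs_add_le _ _) (by norm_num)
  unfold dnu
  calc ∑ s, ν s * |c s i - phi A c t i s|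
      ≤ ∑ s, ν s * ((1 / (t:ℝ)) * ∑ r ∈ range t,
          (|c s i - phiR A c r i s| + |c s i - phiR A c (r + 1) i s|) / 2) :=
        Finset.sum_le_sum (fun s _ => mul_le_mul_of_nonneg_left (hpt s) (hν s))
    _ = (1 / (t:ℝ)) * ∑ r ∈ range t, (∑ s, ν s * |c s i - phiR A c r i s| +
          ∑ s, ν s * |c s i - phiR A c (r + 1) i s|) / 2 := by
        have h3 : ∀ r, (∑ s, ν s * |c s i - phiR A c r i s| +
            ∑ s, ν s * |c s i - phiR A c (r + 1) i s|) / 2 =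
            ∑ s, ν s * ((|c s i - phiR A c r i s| + |c s i - phiR A c (r + 1) i s|) / 2) := by
          intro r
          rw [← Finset.sum_add_distrib, Finset.sum_div]
          refine Finset.sum_congr rfl (fun s _ => ?_)
          ring
        simp_rw [h3]
        rw [Finset.sum_comm]
        simp_rw [Finset.mul_sum]
        refine Finset.sum_congr rfl (fun s _ => Finset.sum_congr rfl (fun r _ => ?_))
        ring

private lemma ft_sum_range_succ_eq_Icc (f : ℕ → ℝ) (t : ℕ) :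
    ∑ r ∈ range t, f (r + 1) = ∑ s ∈ Icc 1 t, f s := by
  induction t with
  | zero => simp
  | succ t ih =>
    rw [Finset.sum_range_succ, ih, Finset.sum_Icc_succ_top (by omega)]

/-- First term: `∑ w d(x, y)^2 ≤ (16/9) R`. -/
theorem first_term' (A : Matrix ι ι ℝ) (w : ι → ℝ) (hw : ∀ i, 0 ≤ w i)
    (hA : ∀ i j, 0 ≤ A i j) (hA1 : ∀ i, ∑ j, A i j = 1)
    (ν : σ → ℝ) (hν : ∀ s, 0 ≤ ν s) (c : σ → ι → ℝ) (hc : ∀ s i, c s i = 0 ∨ c s i = 1)
    (t : ℕ) (ht : 1 ≤ t) :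
    ∑ i, w i * dnu ν (fun s => c s i) (phi A c t i) ^ 2 ≤
      16 / 9 * ((1 / (t : ℝ)) * ∑ s ∈ Icc 1 t, Psi A w ν c s) := by
  have ht0 : (0:ℝ) < t := by exact_mod_cast ht
  have hPsi : ∀ r, Psi A w ν c r = ∑ i, w i * ∑ l, (A ^ r) i l * DD ν c i l ^ 2 := by
    intro r
    unfold Psi
    refine Finset.sum_congr rfl (fun i _ => ?_)
    rw [Finset.mul_sum]
    refine Finset.sum_congr rfl (fun l _ => ?_)
    ring
  have hF0 : ∀ r i, 0 ≤ ∑ l, (A ^ r) i l * DD ν c i l ^ 2 := fun r i =>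
    Finset.sum_nonneg (fun l _ => mul_nonneg (pow_nonneg_entry A hA r i l) (sq_nonneg _))
  have hdnu0 : ∀ (f g : σ → ℝ), 0 ≤ dnu ν f g := fun f g =>
    Finset.sum_nonneg (fun s _ => mul_nonneg (hν s) (abs_nonneg _))
  -- the squared distance to the thresholded law
  have ha : ∀ r i, dnu ν (fun s => c s i) (phiR A c r i) ^ 2 ≤
      16 / 9 * ∑ l, (A ^ r) i l * DD ν c i l ^ 2 := by
    intro r i
    have h1 := ft_dnu_phiR_le A hA hA1 ν hν c hc r i
    have h2 := ft_jensen_sq (fun l => (A ^ r) i l) (fun l => DD ν c i l)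
      (fun l => pow_nonneg_entry A hA r i l) (pow_row_sum A hA1 r i)
    calc dnu ν (fun s => c s i) (phiR A c r i) ^ 2
        ≤ (4 / 3 * ∑ l, (A ^ r) i l * DD ν c i l) ^ 2 := pow_le_pow_left₀ (hdnu0 _ _) h1 2
      _ = 16 / 9 * (∑ l, (A ^ r) i l * DD ν c i l) ^ 2 := by ring
      _ ≤ 16 / 9 * ∑ l, (A ^ r) i l * DD ν c i l ^ 2 :=
          mul_le_mul_of_nonneg_left h2 (by norm_num)
  -- one state
  have hi : ∀ i, dnu ν (fun s => c s i) (phi A c t i) ^ 2 ≤
      16 / 9 * ((1 / (t:ℝ)) * ∑ r ∈ range t, (∑ l, (A ^ r) i l * DD ν c i l ^ 2 +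
        ∑ l, (A ^ (r + 1)) i l * DD ν c i l ^ 2) / 2) := by
    intro i
    have h1 := ft_dnu_phi_le A ν hν c t ht i
    have h2 : ∀ a : ℕ → ℝ, ((1 / (t:ℝ)) * ∑ r ∈ range t, (a r + a (r + 1)) / 2) ^ 2 ≤
        (1 / (t:ℝ)) * ∑ r ∈ range t, (a r ^ 2 + a (r + 1) ^ 2) / 2 := by
      intro a
      have h3 := sq_sum_le_card_mul_sum_sq (s := range t) (f := fun r => (a r + a (r + 1)) / 2)
      rw [Finset.card_range] at h3
      have h4 : ∑ r ∈ range t, ((a r + a (r + 1)) / 2) ^ 2 ≤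
          ∑ r ∈ range t, (a r ^ 2 + a (r + 1) ^ 2) / 2 :=
        Finset.sum_le_sum (fun r _ => by nlinarith [sq_nonneg (a r - a (r + 1))])
      rw [mul_pow]
      calc (1 / (t:ℝ)) ^ 2 * (∑ r ∈ range t, (a r + a (r + 1)) / 2) ^ 2
          ≤ (1 / (t:ℝ)) ^ 2 * (t * ∑ r ∈ range t, ((a r + a (r + 1)) / 2) ^ 2) :=
            mul_le_mul_of_nonneg_left h3 (by positivity)
        _ = (1 / (t:ℝ)) * ∑ r ∈ range t, ((a r + a (r + 1)) / 2) ^ 2 := by field_simp
        _ ≤ (1 / (t:ℝ)) * ∑ r ∈ range t, (a r ^ 2 + a (r + 1) ^ 2) / 2 :=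
            mul_le_mul_of_nonneg_left h4 (by positivity)
    calc dnu ν (fun s => c s i) (phi A c t i) ^ 2
        ≤ ((1 / (t:ℝ)) * ∑ r ∈ range t, (dnu ν (fun s => c s i) (phiR A c r i) +
            dnu ν (fun s => c s i) (phiR A c (r + 1) i)) / 2) ^ 2 :=
          pow_le_pow_left₀ (hdnu0 _ _) h1 2
      _ ≤ (1 / (t:ℝ)) * ∑ r ∈ range t, (dnu ν (fun s => c s i) (phiR A c r i) ^ 2 +
            dnu ν (fun s => c s i) (phiR A c (r + 1) i) ^ 2) / 2 :=
          h2 (fun r => dnu ν (fun s => c s i) (phiR A c r i))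
      _ ≤ (1 / (t:ℝ)) * ∑ r ∈ range t, (16 / 9 * ∑ l, (A ^ r) i l * DD ν c i l ^ 2 +
            16 / 9 * ∑ l, (A ^ (r + 1)) i l * DD ν c i l ^ 2) / 2 := by
          refine mul_le_mul_of_nonneg_left (Finset.sum_le_sum (fun r _ => ?_)) (by positivity)
          have h5 := ha r i
          have h6 := ha (r + 1) i
          linarith
      _ = 16 / 9 * ((1 / (t:ℝ)) * ∑ r ∈ range t, (∑ l, (A ^ r) i l * DD ν c i l ^ 2 +
            ∑ l, (A ^ (r + 1)) i l * DD ν c i l ^ 2) / 2) := by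
          rw [Finset.mul_sum, Finset.mul_sum, Finset.mul_sum]
          refine Finset.sum_congr rfl (fun r _ => ?_)
          ring
  -- `Psi 0 = 0`
  have hPsi0 : Psi A w ν c 0 = 0 := by
    rw [hPsi]
    refine Finset.sum_eq_zero (fun i _ => ?_)
    have h1 : ∑ l, (A ^ 0) i l * DD ν c i l ^ 2 = DD ν c i i ^ 2 := by
      simp [Matrix.one_apply]
    have h2 : DD ν c i i = 0 := by
      unfold DD
      simp
    rw [h1, h2]
    simp
  have hPsit : 0 ≤ Psi A w ν c t := by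
    rw [hPsi]
    exact Finset.sum_nonneg (fun i _ => mul_nonneg (hw i) (hF0 t i))
  calc ∑ i, w i * dnu ν (fun s => c s i) (phi A c t i) ^ 2
      ≤ ∑ i, w i * (16 / 9 * ((1 / (t:ℝ)) * ∑ r ∈ range t,
          (∑ l, (A ^ r) i l * DD ν c i l ^ 2 +
            ∑ l, (A ^ (r + 1)) i l * DD ν c i l ^ 2) / 2)) :=
        Finset.sum_le_sum (fun i _ => mul_le_mul_of_nonneg_left (hi i) (hw i))
    _ = 16 / 9 * ((1 / (t:ℝ)) * ∑ r ∈ range t,
          (Psi A w ν c r + Psi A w ν c (r + 1)) / 2) := by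
        have h3 : ∀ r, (Psi A w ν c r + Psi A w ν c (r + 1)) / 2 =
            ∑ i, w i * ((∑ l, (A ^ r) i l * DD ν c i l ^ 2 +
              ∑ l, (A ^ (r + 1)) i l * DD ν c i l ^ 2) / 2) := by
          intro r
          rw [hPsi, hPsi, ← Finset.sum_add_distrib, Finset.sum_div]
          refine Finset.sum_congr rfl (fun i _ => ?_)
          ring
        simp_rw [h3]
        rw [Finset.sum_comm]
        simp_rw [Finset.mul_sum]
        refine Finset.sum_congr rfl (fun i _ => Finset.sum_congr rfl (fun r _ => ?_))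
        ring
    _ ≤ 16 / 9 * ((1 / (t : ℝ)) * ∑ s ∈ Icc 1 t, Psi A w ν c s) := by
        refine mul_le_mul_of_nonneg_left (mul_le_mul_of_nonneg_left ?_ (by positivity))
          (by norm_num)
        have hshift := ft_sum_range_succ_eq_Icc (fun s => Psi A w ν c s) t
        have htel : ∑ r ∈ range t, (Psi A w ν c (r + 1) - Psi A w ν c r) =
            Psi A w ν c t - Psi A w ν c 0 := Finset.sum_range_sub _ _
        have h4 : ∑ r ∈ range t, (Psi A w ν c r + Psi A w ν c (r + 1)) / 2 =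
            ∑ r ∈ range t, Psi A w ν c (r + 1) -
              (∑ r ∈ range t, (Psi A w ν c (r + 1) - Psi A w ν c r)) / 2 := by
          rw [Finset.sum_div, ← Finset.sum_sub_distrib]
          refine Finset.sum_congr rfl (fun r _ => ?_)
          ring
        rw [h4, htel, hPsi0, hshift]
        linarith

end Aux

end Crest.Agent.MC
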