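import Crest.Agent.MC.Defs

/-!
# S0171, piece P3a: `∑_{r<T} g_r = ∑ w GG_T` (stationarity)
-/

set_option autoImplicit false

namespace Crest.Agent.MC

open Finset

namespace Aux

variable {ι σ : Type*} [Fintype ι] [DecidableEq ι] [Fintype σ]

omit [DecidableEq ι] in
private lemma gg_stationary (A : Matrix ι ι ℝ) (w : ι → ℝ) (hA1 : ∀ i, ∑ j, A i j = 1)
    (hrev : ∀ i j, w i * A i j = w j * A j i) (j : ι) : ∑ i, w i * A i j = w j := by
  simp_rw [hrev _ j]
  rw [← Finset.mul_sum, hA1, mul_one]

/-- Stationarity: the sum of the `g_r` is the stationary average of the value function. -/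
theorem sum_gg_eq' (A : Matrix ι ι ℝ) (w : ι → ℝ) (hA1 : ∀ i, ∑ j, A i j = 1)
    (hrev : ∀ i j, w i * A i j = w j * A j i) (ν : σ → ℝ) (c : σ → ι → ℝ) (T : ℕ) :
    ∑ r ∈ range T, gg A w ν c r = ∑ j, w j * GG A ν c T j := by
  induction T with
  | zero => simp [GG]
  | succ T ih =>
    rw [Finset.sum_range_succ, ih]
    have h1 : ∀ j, w j * GG A ν c (T + 1) j =
        ∑ l, w j * A j l * delta A ν c T j l ^ 2 + ∑ l, w j * A j l * GG A ν c T l := by
      intro j
      rw [GG, Finset.mul_sum, ← Finset.sum_add_distrib]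
      refine Finset.sum_congr rfl (fun l _ => ?_)
      ring
    simp_rw [h1]
    rw [Finset.sum_add_distrib, add_comm]
    congr 1
    rw [Finset.sum_comm]
    refine Finset.sum_congr rfl (fun l _ => ?_)
    rw [← Finset.sum_mul, gg_stationary A w hA1 hrev l]

end Aux

end Crest.Agent.MC
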