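import Crest.Agent.MC.Defs
import Crest.Agent.MC.Step

/-!
# S0171, piece P3: `Psi t ≤ 4 R` (triangle inequality and stationarity)
-/

set_option autoImplicit false

namespace Crest.Agent.MC.Aux

open Finset

variable {ι σ : Type*} [Fintype ι] [DecidableEq ι] [Fintype σ]

private lemma psi_stationary (A : Matrix ι ι ℝ) (w : ι → ℝ) (hA1 : ∀ i, ∑ j, A i j = 1)
    (hrev : ∀ i j, w i * A i j = w j * A j i) (j : ι) : ∑ i, w i * A i j = w j := by
  calc ∑ i, w i * A i j = ∑ i, w j * A j i := sum_congr rfl fun i _ => hrev i j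
    _ = w j := by rw [← mul_sum, hA1 j, mul_one]

private lemma psi_stationary_pow (A : Matrix ι ι ℝ) (w : ι → ℝ) (hA1 : ∀ i, ∑ j, A i j = 1)
    (hrev : ∀ i j, w i * A i j = w j * A j i) (r : ℕ) (j : ι) :
    ∑ i, w i * (A ^ r) i j = w j := by
  induction r generalizing j with
  | zero => simp [Matrix.one_apply]
  | succ r ih =>
    calc ∑ i, w i * (A ^ (r + 1)) i j = ∑ i, ∑ m, w i * ((A ^ r) i m * A m j) := by
          refine sum_congr rfl fun i _ => ?_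
          rw [pow_succ, Matrix.mul_apply, mul_sum]
      _ = ∑ m, (∑ i, w i * (A ^ r) i m) * A m j := by
          rw [sum_comm]
          refine sum_congr rfl fun m _ => ?_
          rw [sum_mul]
          refine sum_congr rfl fun i _ => ?_
          ring
      _ = ∑ m, w m * A m j := sum_congr rfl fun m _ => by rw [ih m]
      _ = w j := psi_stationary A w hA1 hrev j

private lemma psi_DD_nonneg (ν : σ → ℝ) (hν : ∀ s, 0 ≤ ν s) (c : σ → ι → ℝ) (i l : ι) :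
    0 ≤ DD ν c i l :=
  sum_nonneg fun s _ => mul_nonneg (hν s) (abs_nonneg _)

private lemma psi_DD_triangle (ν : σ → ℝ) (hν : ∀ s, 0 ≤ ν s) (c : σ → ι → ℝ) (i m l : ι) :
    DD ν c i l ≤ DD ν c i m + DD ν c m l := by
  unfold DD
  rw [← sum_add_distrib]
  refine sum_le_sum fun s _ => ?_
  rw [← mul_add]
  exact mul_le_mul_of_nonneg_left (abs_sub_le _ _ _) (hν s)

private lemma psi_DD_sq_le (ν : σ → ℝ) (hν : ∀ s, 0 ≤ ν s) (c : σ → ι → ℝ) (i m l : ι) :
    DD ν c i l ^ 2 ≤ 2 * DD ν c i m ^ 2 + 2 * DD ν c m l ^ 2 := by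
  have h1 := psi_DD_triangle ν hν c i m l
  have h2 := psi_DD_nonneg ν hν c i l
  nlinarith [sq_nonneg (DD ν c i m - DD ν c m l)]

private lemma psi_nonneg (A : Matrix ι ι ℝ) (w : ι → ℝ) (hw : ∀ i, 0 ≤ w i)
    (hA : ∀ i j, 0 ≤ A i j) (ν : σ → ℝ) (c : σ → ι → ℝ) (s : ℕ) : 0 ≤ Psi A w ν c s :=
  sum_nonneg fun i _ => sum_nonneg fun l _ =>
    mul_nonneg (mul_nonneg (hw i) (pow_nonneg_entry A hA s i l)) (sq_nonneg _)

private lemma psi_zero (A : Matrix ι ι ℝ) (w : ι → ℝ) (ν : σ → ℝ) (c : σ → ι → ℝ) :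
    Psi A w ν c 0 = 0 := by
  unfold Psi
  simp [Matrix.one_apply, DD]

/-- `Psi (a + b) ≤ 2 Psi a + 2 Psi b`. -/
private lemma psi_add_le (A : Matrix ι ι ℝ) (w : ι → ℝ) (hw : ∀ i, 0 ≤ w i)
    (hA : ∀ i j, 0 ≤ A i j) (hA1 : ∀ i, ∑ j, A i j = 1)
    (hrev : ∀ i j, w i * A i j = w j * A j i)
    (ν : σ → ℝ) (hν : ∀ s, 0 ≤ ν s) (c : σ → ι → ℝ) (a b : ℕ) :
    Psi A w ν c (a + b) ≤ 2 * Psi A w ν c a + 2 * Psi A w ν c b := by
  have e0 : Psi A w ν c (a + b)
      = ∑ i, ∑ l, ∑ m, w i * (A ^ a) i m * (A ^ b) m l * DD ν c i l ^ 2 := by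
    unfold Psi
    refine sum_congr rfl fun i _ => sum_congr rfl fun l _ => ?_
    rw [pow_add, Matrix.mul_apply, mul_sum, sum_mul]
    refine sum_congr rfl fun m _ => ?_
    ring
  have e1 : ∑ i, ∑ l, ∑ m, w i * (A ^ a) i m * (A ^ b) m l * (2 * DD ν c i m ^ 2)
      = 2 * Psi A w ν c a := by
    unfold Psi
    rw [mul_sum]
    refine sum_congr rfl fun i _ => ?_
    rw [sum_comm, mul_sum]
    refine sum_congr rfl fun m _ => ?_
    calc ∑ l, w i * (A ^ a) i m * (A ^ b) m l * (2 * DD ν c i m ^ 2)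
        = (w i * (A ^ a) i m * (2 * DD ν c i m ^ 2)) * ∑ l, (A ^ b) m l := by
          rw [mul_sum]
          refine sum_congr rfl fun l _ => ?_
          ring
      _ = 2 * (w i * (A ^ a) i m * DD ν c i m ^ 2) := by
          rw [pow_row_sum A hA1 b m]; ring
  have e2 : ∑ i, ∑ l, ∑ m, w i * (A ^ a) i m * (A ^ b) m l * (2 * DD ν c m l ^ 2)
      = 2 * Psi A w ν c b := by
    unfold Psi
    rw [mul_sum]
    calc ∑ i, ∑ l, ∑ m, w i * (A ^ a) i m * (A ^ b) m l * (2 * DD ν c m l ^ 2)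
        = ∑ m, ∑ l, ∑ i, w i * (A ^ a) i m * (A ^ b) m l * (2 * DD ν c m l ^ 2) := by
          calc ∑ i, ∑ l, ∑ m, w i * (A ^ a) i m * (A ^ b) m l * (2 * DD ν c m l ^ 2)
              = ∑ i, ∑ m, ∑ l, w i * (A ^ a) i m * (A ^ b) m l * (2 * DD ν c m l ^ 2) :=
                sum_congr rfl fun i _ => sum_comm
            _ = ∑ m, ∑ i, ∑ l, w i * (A ^ a) i m * (A ^ b) m l * (2 * DD ν c m l ^ 2) :=
                sum_comm
            _ = ∑ m, ∑ l, ∑ i, w i * (A ^ a) i m * (A ^ b) m l * (2 * DD ν c m l ^ 2) :=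
                sum_congr rfl fun m _ => sum_comm
      _ = ∑ m, ∑ l, (∑ i, w i * (A ^ a) i m) * ((A ^ b) m l * (2 * DD ν c m l ^ 2)) := by
          refine sum_congr rfl fun m _ => sum_congr rfl fun l _ => ?_
          rw [sum_mul]
          refine sum_congr rfl fun i _ => ?_
          ring
      _ = ∑ m, 2 * ∑ l, w m * (A ^ b) m l * DD ν c m l ^ 2 := by
          refine sum_congr rfl fun m _ => ?_
          rw [mul_sum]
          refine sum_congr rfl fun l _ => ?_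
          rw [psi_stationary_pow A w hA1 hrev a m]
          ring
  rw [e0, ← e1, ← e2, ← sum_add_distrib]
  refine sum_le_sum fun i _ => ?_
  rw [← sum_add_distrib]
  refine sum_le_sum fun l _ => ?_
  rw [← sum_add_distrib]
  refine sum_le_sum fun m _ => ?_
  rw [← mul_add]
  refine mul_le_mul_of_nonneg_left (psi_DD_sq_le ν hν c i m l) ?_
  exact mul_nonneg (mul_nonneg (hw i) (pow_nonneg_entry A hA a i m)) (pow_nonneg_entry A hA b m l)

/-- `Psi t ≤ 4 R` (triangle inequality and stationarity). -/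
theorem Psi_le' (A : Matrix ι ι ℝ) (w : ι → ℝ) (hw : ∀ i, 0 ≤ w i)
    (hA : ∀ i j, 0 ≤ A i j) (hA1 : ∀ i, ∑ j, A i j = 1)
    (hrev : ∀ i j, w i * A i j = w j * A j i)
    (ν : σ → ℝ) (hν : ∀ s, 0 ≤ ν s) (c : σ → ι → ℝ) (t : ℕ) (ht : 1 ≤ t) :
    Psi A w ν c t ≤ 4 * ((1 / (t : ℝ)) * ∑ s ∈ Icc 1 t, Psi A w ν c s) := by
  have ht0 : (0:ℝ) < t := by exact_mod_cast ht
  -- sum over `range (t+1)`
  have hIcc : ∑ s ∈ Icc 1 t, Psi A w ν c s = ∑ s ∈ range (t + 1), Psi A w ν c s := by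
    rw [sum_range_succ' (fun s => Psi A w ν c s) t, psi_zero, add_zero, range_eq_Ico,
      sum_Ico_add' (fun s => Psi A w ν c s) 0 t 1, zero_add]
    rfl
  have hsum : ∑ s ∈ range (t + 1), Psi A w ν c t
      ≤ ∑ s ∈ range (t + 1), (2 * Psi A w ν c s + 2 * Psi A w ν c (t + 1 - 1 - s)) := by
    refine sum_le_sum fun s hs => ?_
    have hs' : s ≤ t := Nat.lt_succ_iff.mp (mem_range.mp hs)
    have := psi_add_le A w hw hA hA1 hrev ν hν c s (t - s)
    rw [Nat.add_sub_cancel' hs'] at this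
    simpa using this
  have hrefl : ∑ s ∈ range (t + 1), Psi A w ν c (t + 1 - 1 - s)
      = ∑ s ∈ range (t + 1), Psi A w ν c s :=
    sum_range_reflect (fun s => Psi A w ν c s) (t + 1)
  rw [sum_const, card_range, nsmul_eq_mul, sum_add_distrib, ← mul_sum, ← mul_sum, hrefl] at hsum
  have hP := psi_nonneg A w hw hA ν c t
  rw [hIcc]
  have h3 : (t : ℝ) * Psi A w ν c t ≤ 4 * ∑ s ∈ range (t + 1), Psi A w ν c s := by
    push_cast at hsum
    nlinarith
  have h4 : 4 * ((1 / (t : ℝ)) * ∑ s ∈ range (t + 1), Psi A w ν c s)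
      = (4 * ∑ s ∈ range (t + 1), Psi A w ν c s) / t := by ring
  rw [h4, le_div_iff₀ ht0]
  linarith

end Crest.Agent.MC.Aux
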