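import Crest.Agent.MC.Defs

/-!
# S0171, piece P3b: the second term (symmetrisation), `t ∑ w A d(y_i, y_j)^2 ≤ ∑_{r<t} g_r`
(helper6; helper lemmas are `private`)
-/

set_option autoImplicit false

namespace Crest.Agent.MC.Aux

open Finset

variable {ι σ : Type*} [Fintype ι] [DecidableEq ι] [Fintype σ]

private lemma delta_nonneg (A : Matrix ι ι ℝ) (ν : σ → ℝ) (hν : ∀ s, 0 ≤ ν s) (c : σ → ι → ℝ)
    (r : ℕ) (i j : ι) : 0 ≤ delta A ν c r i j :=
  sum_nonneg fun s _ => mul_nonneg (hν s) (abs_nonneg _)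

/-- `dnu(phi t i, phi t j) ≤ (1/t) ∑_{r<t} (delta r i j + delta r j i)/2`. -/
private lemma dnu_phi_phi_le (A : Matrix ι ι ℝ) (ν : σ → ℝ) (hν : ∀ s, 0 ≤ ν s) (c : σ → ι → ℝ)
    (t : ℕ) (ht : 1 ≤ t) (i j : ι) :
    dnu ν (phi A c t i) (phi A c t j) ≤
      (1 / (t : ℝ)) * ∑ r ∈ range t, (delta A ν c r i j + delta A ν c r j i) / 2 := by
  have ht0 : (0:ℝ) < t := by exact_mod_cast ht
  unfold dnu phi delta
  have key : ∀ s, |(1 / (t : ℝ)) * ∑ r ∈ range t, (phiR A c r i s + phiR A c (r + 1) i s) / 2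
        - (1 / (t : ℝ)) * ∑ r ∈ range t, (phiR A c r j s + phiR A c (r + 1) j s) / 2|
      ≤ (1 / (t : ℝ)) * ∑ r ∈ range t, (|phiR A c (r + 1) i s - phiR A c r j s|
          + |phiR A c (r + 1) j s - phiR A c r i s|) / 2 := by
    intro s
    have e : (1 / (t : ℝ)) * ∑ r ∈ range t, (phiR A c r i s + phiR A c (r + 1) i s) / 2
        - (1 / (t : ℝ)) * ∑ r ∈ range t, (phiR A c r j s + phiR A c (r + 1) j s) / 2
        = (1 / (t : ℝ)) * ∑ r ∈ range t, ((phiR A c (r + 1) i s - phiR A c r j s)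
          - (phiR A c (r + 1) j s - phiR A c r i s)) / 2 := by
      rw [← mul_sub, ← sum_sub_distrib]
      congr 1
      refine sum_congr rfl fun r _ => ?_
      ring
    rw [e, abs_mul, abs_of_nonneg (by positivity : (0:ℝ) ≤ 1 / (t : ℝ))]
    refine mul_le_mul_of_nonneg_left ?_ (by positivity)
    refine (abs_sum_le_sum_abs _ _).trans (sum_le_sum fun r _ => ?_)
    rw [abs_div, abs_of_pos (by norm_num : (0:ℝ) < 2)]
    exact div_le_div_of_nonneg_right (abs_sub _ _) (by norm_num)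
  calc ∑ s, ν s * |(1 / (t : ℝ)) * ∑ r ∈ range t, (phiR A c r i s + phiR A c (r + 1) i s) / 2
        - (1 / (t : ℝ)) * ∑ r ∈ range t, (phiR A c r j s + phiR A c (r + 1) j s) / 2|
      ≤ ∑ s, ν s * ((1 / (t : ℝ)) * ∑ r ∈ range t, (|phiR A c (r + 1) i s - phiR A c r j s|
          + |phiR A c (r + 1) j s - phiR A c r i s|) / 2) :=
        sum_le_sum fun s _ => mul_le_mul_of_nonneg_left (key s) (hν s)
    _ = (1 / (t : ℝ)) * ∑ r ∈ range t, (∑ s, ν s * |phiR A c (r + 1) i s - phiR A c r j s|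
          + ∑ s, ν s * |phiR A c (r + 1) j s - phiR A c r i s|) / 2 := by
        simp only [mul_sum, ← sum_add_distrib, sum_div]
        rw [sum_comm]
        refine sum_congr rfl fun l _ => sum_congr rfl fun s _ => ?_
        ring

/-- Pointwise square bound. -/
private lemma dnu_sq_le (A : Matrix ι ι ℝ) (ν : σ → ℝ) (hν : ∀ s, 0 ≤ ν s) (c : σ → ι → ℝ)
    (t : ℕ) (ht : 1 ≤ t) (i j : ι) :
    (t : ℝ) * dnu ν (phi A c t i) (phi A c t j) ^ 2 ≤
      ∑ r ∈ range t, (delta A ν c r i j ^ 2 + delta A ν c r j i ^ 2) / 2 := by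
  have ht0 : (0:ℝ) < t := by exact_mod_cast ht
  have hd0 : 0 ≤ dnu ν (phi A c t i) (phi A c t j) :=
    sum_nonneg fun s _ => mul_nonneg (hν s) (abs_nonneg _)
  have h1 := dnu_phi_phi_le A ν hν c t ht i j
  have h2 : (∑ r ∈ range t, (delta A ν c r i j + delta A ν c r j i) / 2) ^ 2
      ≤ t * ∑ r ∈ range t, ((delta A ν c r i j + delta A ν c r j i) / 2) ^ 2 := by
    have := sq_sum_le_card_mul_sum_sq (s := range t)
      (f := fun r => (delta A ν c r i j + delta A ν c r j i) / 2)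
    simpa using this
  have h3 : ∑ r ∈ range t, ((delta A ν c r i j + delta A ν c r j i) / 2) ^ 2
      ≤ ∑ r ∈ range t, (delta A ν c r i j ^ 2 + delta A ν c r j i ^ 2) / 2 := by
    refine sum_le_sum fun r _ => ?_
    nlinarith [sq_nonneg (delta A ν c r i j - delta A ν c r j i)]
  calc (t : ℝ) * dnu ν (phi A c t i) (phi A c t j) ^ 2
      ≤ (t : ℝ) * ((1 / (t : ℝ)) * ∑ r ∈ range t,
          (delta A ν c r i j + delta A ν c r j i) / 2) ^ 2 :=
        mul_le_mul_of_nonneg_left (pow_le_pow_left₀ hd0 h1 2) ht0.le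
    _ = (1 / (t : ℝ)) * (∑ r ∈ range t, (delta A ν c r i j + delta A ν c r j i) / 2) ^ 2 := by
        field_simp
    _ ≤ (1 / (t : ℝ)) * (t * ∑ r ∈ range t, ((delta A ν c r i j + delta A ν c r j i) / 2) ^ 2) :=
        mul_le_mul_of_nonneg_left h2 (by positivity)
    _ = ∑ r ∈ range t, ((delta A ν c r i j + delta A ν c r j i) / 2) ^ 2 := by
        field_simp
    _ ≤ _ := h3

/-- Second term, symmetrisation: `t ∑ w A d(y_i, y_j)^2 ≤ ∑_{r<t} g_r`. -/
theorem second_term' (A : Matrix ι ι ℝ) (w : ι → ℝ) (hw : ∀ i, 0 ≤ w i)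
    (hA : ∀ i j, 0 ≤ A i j) (hrev : ∀ i j, w i * A i j = w j * A j i)
    (ν : σ → ℝ) (hν : ∀ s, 0 ≤ ν s) (c : σ → ι → ℝ) (t : ℕ) (ht : 1 ≤ t) :
    (t : ℝ) * ∑ i, ∑ j, w i * A i j * dnu ν (phi A c t i) (phi A c t j) ^ 2 ≤
      ∑ r ∈ range t, gg A w ν c r := by
  -- the reversed half equals `gg`
  have hswap : ∀ r, ∑ i, ∑ j, w i * A i j * delta A ν c r j i ^ 2 = gg A w ν c r := by
    intro r
    unfold gg
    rw [sum_comm]
    refine sum_congr rfl fun j _ => sum_congr rfl fun i _ => ?_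
    rw [hrev i j]
  have hgg : ∀ r, gg A w ν c r
      = ∑ i, ∑ j, w i * A i j * ((delta A ν c r i j ^ 2 + delta A ν c r j i ^ 2) / 2) := by
    intro r
    have e : ∑ i, ∑ j, w i * A i j * ((delta A ν c r i j ^ 2 + delta A ν c r j i ^ 2) / 2)
        = (∑ i, ∑ j, w i * A i j * delta A ν c r i j ^ 2
            + ∑ i, ∑ j, w i * A i j * delta A ν c r j i ^ 2) / 2 := by
      rw [← sum_add_distrib, sum_div]
      refine sum_congr rfl fun i _ => ?_
      rw [← sum_add_distrib, sum_div]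
      refine sum_congr rfl fun j _ => ?_
      ring
    rw [e, hswap r]
    unfold gg
    ring
  calc (t : ℝ) * ∑ i, ∑ j, w i * A i j * dnu ν (phi A c t i) (phi A c t j) ^ 2
      = ∑ i, ∑ j, w i * A i j * ((t : ℝ) * dnu ν (phi A c t i) (phi A c t j) ^ 2) := by
        rw [mul_sum]
        refine sum_congr rfl fun i _ => ?_
        rw [mul_sum]
        refine sum_congr rfl fun j _ => ?_
        ring
    _ ≤ ∑ i, ∑ j, w i * A i j *
          ∑ r ∈ range t, (delta A ν c r i j ^ 2 + delta A ν c r j i ^ 2) / 2 :=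
        sum_le_sum fun i _ => sum_le_sum fun j _ =>
          mul_le_mul_of_nonneg_left (dnu_sq_le A ν hν c t ht i j) (mul_nonneg (hw i) (hA i j))
    _ = ∑ r ∈ range t, gg A w ν c r := by
        simp only [hgg, mul_sum]
        symm
        rw [sum_comm]
        refine sum_congr rfl fun i _ => ?_
        exact sum_comm

end Crest.Agent.MC.Aux
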