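import Crest.Agent.MC.Defs
import Crest.Agent.MC.Step
import Crest.Agent.MC.ChainFirst
import Crest.Agent.MC.ChainGG
import Crest.Agent.MC.ChainPsi
import Crest.Agent.MC.ChainSecond

/-!
# S0171, piece P3: stationarity arguments (first term, symmetrisation of the second term,
`Psi t ≤ 4 R`, and `∑ g_r = ∑ w GG`)
-/

set_option autoImplicit false

namespace Crest.Agent.MC

open Finset

variable {ι σ : Type*} [Fintype ι] [DecidableEq ι] [Fintype σ]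

theorem stationary (A : Matrix ι ι ℝ) (w : ι → ℝ) (hA1 : ∀ i, ∑ j, A i j = 1)
    (hrev : ∀ i j, w i * A i j = w j * A j i) (j : ι) : ∑ i, w i * A i j = w j := by
  calc ∑ i, w i * A i j = ∑ i, w j * A j i := Finset.sum_congr rfl (fun i _ => hrev i j)
    _ = w j * ∑ i, A j i := by rw [Finset.mul_sum]
    _ = w j := by rw [hA1 j, mul_one]

theorem stationary_pow (A : Matrix ι ι ℝ) (w : ι → ℝ) (hA1 : ∀ i, ∑ j, A i j = 1)
    (hrev : ∀ i j, w i * A i j = w j * A j i) (r : ℕ) (j : ι) :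
    ∑ i, w i * (A ^ r) i j = w j := by
  induction r generalizing j with
  | zero => simp [Matrix.one_apply]
  | succ r ih =>
    have h : ∀ i, w i * (A ^ (r + 1)) i j = ∑ k, w i * (A ^ r) i k * A k j := by
      intro i
      rw [pow_succ, Matrix.mul_apply, Finset.mul_sum]
      exact Finset.sum_congr rfl (fun k _ => by ring)
    rw [Finset.sum_congr rfl (fun i _ => h i), Finset.sum_comm]
    have h2 : ∀ k, ∑ i, w i * (A ^ r) i k * A k j = w k * A k j := by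
      intro k
      rw [← Finset.sum_mul, ih k]
    rw [Finset.sum_congr rfl (fun k _ => h2 k)]
    exact stationary A w hA1 hrev j

theorem Psi_nonneg (A : Matrix ι ι ℝ) (w : ι → ℝ) (hw : ∀ i, 0 ≤ w i) (hA : ∀ i j, 0 ≤ A i j)
    (ν : σ → ℝ) (c : σ → ι → ℝ) (s : ℕ) : 0 ≤ Psi A w ν c s := by
  unfold Psi
  exact Finset.sum_nonneg (fun i _ => Finset.sum_nonneg (fun l _ =>
    mul_nonneg (mul_nonneg (hw i) (pow_nonneg_entry A hA s i l)) (sq_nonneg _)))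

/-- First term: `∑ w d(x, y)^2 ≤ (16/9) R`. -/
theorem first_term (A : Matrix ι ι ℝ) (w : ι → ℝ) (hw : ∀ i, 0 ≤ w i)
    (hA : ∀ i j, 0 ≤ A i j) (hA1 : ∀ i, ∑ j, A i j = 1)
    (ν : σ → ℝ) (hν : ∀ s, 0 ≤ ν s) (c : σ → ι → ℝ) (hc : ∀ s i, c s i = 0 ∨ c s i = 1)
    (t : ℕ) (ht : 1 ≤ t) :
    ∑ i, w i * dnu ν (fun s => c s i) (phi A c t i) ^ 2 ≤
      16 / 9 * ((1 / (t : ℝ)) * ∑ s ∈ Icc 1 t, Psi A w ν c s) :=
  Aux.first_term' A w hw hA hA1 ν hν c hc t ht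

/-- Second term, symmetrisation: `t ∑ w A d(y_i, y_j)^2 ≤ ∑_{r<t} g_r`. -/
theorem second_term (A : Matrix ι ι ℝ) (w : ι → ℝ) (hw : ∀ i, 0 ≤ w i)
    (hA : ∀ i j, 0 ≤ A i j) (hrev : ∀ i j, w i * A i j = w j * A j i)
    (ν : σ → ℝ) (hν : ∀ s, 0 ≤ ν s) (c : σ → ι → ℝ) (t : ℕ) (ht : 1 ≤ t) :
    (t : ℝ) * ∑ i, ∑ j, w i * A i j * dnu ν (phi A c t i) (phi A c t j) ^ 2 ≤
      ∑ r ∈ range t, gg A w ν c r :=
  Aux.second_term' A w hw hA hrev ν hν c t ht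

/-- `Psi t ≤ 4 R` (triangle inequality and stationarity). -/
theorem Psi_le (A : Matrix ι ι ℝ) (w : ι → ℝ) (hw : ∀ i, 0 ≤ w i)
    (hA : ∀ i j, 0 ≤ A i j) (hA1 : ∀ i, ∑ j, A i j = 1)
    (hrev : ∀ i j, w i * A i j = w j * A j i)
    (ν : σ → ℝ) (hν : ∀ s, 0 ≤ ν s) (c : σ → ι → ℝ) (t : ℕ) (ht : 1 ≤ t) :
    Psi A w ν c t ≤ 4 * ((1 / (t : ℝ)) * ∑ s ∈ Icc 1 t, Psi A w ν c s) :=
  Aux.Psi_le' A w hw hA hA1 hrev ν hν c t ht

/-- Stationarity: the sum of the `g_r` is the stationary average of the value function. -/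
theorem sum_gg_eq (A : Matrix ι ι ℝ) (w : ι → ℝ) (hA1 : ∀ i, ∑ j, A i j = 1)
    (hrev : ∀ i j, w i * A i j = w j * A j i) (ν : σ → ℝ) (c : σ → ι → ℝ) (T : ℕ) :
    ∑ r ∈ range T, gg A w ν c r = ∑ j, w j * GG A ν c T j :=
  Aux.sum_gg_eq' A w hA1 hrev ν c T

/-- The right-hand side of the cotype inequality in terms of `Psi`. -/
theorem rhs_eq (A : Matrix ι ι ℝ) (w : ι → ℝ) (ν : σ → ℝ) (c : σ → ι → ℝ) (t : ℕ) :
    ∑ i, ∑ j, w i * ((1 / (t : ℝ)) • ∑ s ∈ Icc 1 t, A ^ s) i j * DD ν c i j ^ 2 =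
      (1 / (t : ℝ)) * ∑ s ∈ Icc 1 t, Psi A w ν c s := by
  have h : ∀ i j, w i * ((1 / (t : ℝ)) • ∑ s ∈ Icc 1 t, A ^ s) i j * DD ν c i j ^ 2
      = ∑ s ∈ Icc 1 t, (1 / (t : ℝ)) * (w i * (A ^ s) i j * DD ν c i j ^ 2) := by
    intro i j
    rw [Matrix.smul_apply, Matrix.sum_apply, smul_eq_mul, Finset.mul_sum, Finset.mul_sum,
      Finset.sum_mul]
    exact Finset.sum_congr rfl (fun s _ => by ring)
  unfold Psi
  calc ∑ i, ∑ j, w i * ((1 / (t : ℝ)) • ∑ s ∈ Icc 1 t, A ^ s) i j * DD ν c i j ^ 2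
      = ∑ i, ∑ j, ∑ s ∈ Icc 1 t, (1 / (t : ℝ)) * (w i * (A ^ s) i j * DD ν c i j ^ 2) :=
        Finset.sum_congr rfl (fun i _ => Finset.sum_congr rfl (fun j _ => h i j))
    _ = ∑ i, ∑ s ∈ Icc 1 t, ∑ j, (1 / (t : ℝ)) * (w i * (A ^ s) i j * DD ν c i j ^ 2) :=
        Finset.sum_congr rfl (fun i _ => Finset.sum_comm)
    _ = ∑ s ∈ Icc 1 t, ∑ i, ∑ j, (1 / (t : ℝ)) * (w i * (A ^ s) i j * DD ν c i j ^ 2) :=
        Finset.sum_comm
    _ = (1 / (t : ℝ)) * ∑ s ∈ Icc 1 t, ∑ i, ∑ l, w i * (A ^ s) i l * DD ν c i l ^ 2 := by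
        rw [Finset.mul_sum]
        refine Finset.sum_congr rfl (fun s _ => ?_)
        rw [Finset.mul_sum]
        refine Finset.sum_congr rfl (fun i _ => ?_)
        rw [Finset.mul_sum]

end Crest.Agent.MC
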