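import Mathlib

set_option autoImplicit false

/-!
# Cut decomposition of a finite subset of ℓ₁

For finitely many points `x i` of `ℓ₁` there are nonnegative weights `ν S` on the subsets
`S` of the index set and an affine map `J` from real functions on the subsets to `ℓ₁` such that
`J` sends the indicator `χ_i` of `{S | i ∈ S}` to `x i`, is `1`-Lipschitz for the weighted
`ℓ₁` distance `∑ S, ν S * |φ S - φ' S|`, and the weighted distance of `χ_i`, `χ_j` is
`dist (x i) (x j)`.
-/

namespace Crest.Agent.MC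

open MeasureTheory

namespace CutsAux

noncomputable section

/-- the cut of the index set determined by the real vector `a` at level `u` -/
def cutSet {ι : Type*} [Fintype ι] [DecidableEq ι] (a : ι → ℝ) (u : ℝ) : Finset ι :=
  Finset.univ.filter (fun j => u < a j)

lemma mem_cutSet {ι : Type*} [Fintype ι] [DecidableEq ι] (a : ι → ℝ) (u : ℝ) (j : ι) :
    j ∈ cutSet a u ↔ u < a j := by
  simp [cutSet]

/-- the set of levels at which the cut is `S` -/
def cutLevel {ι : Type*} [Fintype ι] [DecidableEq ι] (a : ι → ℝ) (S : Finset ι) : Set ℝ := {u | cutSet a u = S}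

lemma cutLevel_measurable {ι : Type*} [Fintype ι] [DecidableEq ι] (a : ι → ℝ) (S : Finset ι) :
    MeasurableSet (cutLevel a S) := by
  have h : cutLevel a S = ⋂ j : ι, {u : ℝ | u < a j ↔ j ∈ S} := by
    ext u
    simp only [cutLevel, Set.mem_ofPred_eq, Set.mem_iInter, Finset.ext_iff, mem_cutSet]
  rw [h]
  refine MeasurableSet.iInter (fun j => ?_)
  by_cases hj : j ∈ S
  · have h2 : {u : ℝ | u < a j ↔ j ∈ S} = Set.Iio (a j) := by ext u; simp [hj]
    rw [h2]; exact measurableSet_Iio
  · have h2 : {u : ℝ | u < a j ↔ j ∈ S} = Set.Ici (a j) := by ext u; simp [hj]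
    rw [h2]; exact measurableSet_Ici

lemma cutLevel_subset {ι : Type*} [Fintype ι] [DecidableEq ι] (a : ι → ℝ) (S : Finset ι) {i j : ι}
    (hi : i ∈ S) (hj : j ∉ S) : cutLevel a S ⊆ Set.Ico (a j) (a i) := by
  intro u hu
  simp only [cutLevel, Set.mem_ofPred_eq] at hu
  have h1 : u < a i := by rw [← mem_cutSet, hu]; exact hi
  have h2 : ¬ u < a j := by rw [← mem_cutSet, hu]; exact hj
  exact ⟨not_lt.mp h2, h1⟩

lemma cutLevel_volume_lt_top {ι : Type*} [Fintype ι] [DecidableEq ι] (a : ι → ℝ) (S : Finset ι)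
    (hS : ¬ (S = ∅ ∨ S = Finset.univ)) : volume (cutLevel a S) < ⊤ := by
  have hS' : S ≠ ∅ ∧ S ≠ Finset.univ := by tauto
  obtain ⟨i, hi⟩ := Finset.nonempty_iff_ne_empty.mpr hS'.1
  obtain ⟨j, hj⟩ : ∃ j, j ∉ S := by
    by_contra hcon
    apply hS'.2
    ext j
    simp only [Finset.mem_univ, iff_true]
    by_contra hj
    exact hcon ⟨j, hj⟩
  refine lt_of_le_of_lt (measure_mono (cutLevel_subset a S hi hj)) ?_
  rw [Real.volume_Ico]
  exact ENNReal.ofReal_lt_top

/-- the weight of the cut `S` for the real vector `a`: the length of the set of levels `u`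
with `{j | u < a j} = S` (and `0` for the trivial cuts) -/
def cutW {ι : Type*} [Fintype ι] [DecidableEq ι] (a : ι → ℝ) (S : Finset ι) : ℝ :=
  if S = ∅ ∨ S = Finset.univ then 0 else (volume (cutLevel a S)).toReal

lemma cutW_nonneg {ι : Type*} [Fintype ι] [DecidableEq ι] (a : ι → ℝ) (S : Finset ι) : 0 ≤ cutW a S := by
  unfold cutW
  split_ifs
  · exact le_rfl
  · exact ENNReal.toReal_nonneg

lemma cutW_sum {ι : Type*} [Fintype ι] [DecidableEq ι] (a : ι → ℝ) (g : Finset ι → ℝ) :
    ∑ S, cutW a S * g S =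
      ∫ u, (if cutSet a u = ∅ ∨ cutSet a u = Finset.univ then 0 else g (cutSet a u)) := by
  have h1 : ∀ u, (if cutSet a u = ∅ ∨ cutSet a u = Finset.univ then 0 else g (cutSet a u)) =
      ∑ S, (cutLevel a S).indicator
        (fun _ => if S = ∅ ∨ S = Finset.univ then 0 else g S) u := by
    intro u
    rw [Finset.sum_eq_single (cutSet a u)]
    · rw [Set.indicator_of_mem]
      simp [cutLevel]
    · intro S _ hS
      rw [Set.indicator_of_notMem]
      simp only [cutLevel, Set.mem_ofPred_eq]
      exact fun h => hS h.symm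
    · intro h
      exact absurd (Finset.mem_univ _) h
  simp_rw [h1]
  rw [integral_finsetSum]
  · refine Finset.sum_congr rfl (fun S _ => ?_)
    rw [integral_indicator_const _ (cutLevel_measurable a S)]
    unfold cutW
    split_ifs
    · simp
    · simp [Measure.real]
  · intro S _
    by_cases hS : S = ∅ ∨ S = Finset.univ
    · simp only [hS, if_true, Set.indicator_zero]
      exact integrable_zero _ _ _
    · simp only [hS, if_false]
      rw [integrable_indicator_iff (cutLevel_measurable a S)]
      exact integrableOn_const (cutLevel_volume_lt_top a S hS).ne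

lemma cutW_sum_comp_of_le {ι : Type*} [Fintype ι] [DecidableEq ι] (a : ι → ℝ) (i j : ι) (hle : a j ≤ a i)
    (h : ℝ → ℝ) (h0 : h 0 = 0) :
    ∑ S, cutW a S * h ((if i ∈ S then (1:ℝ) else 0) - (if j ∈ S then 1 else 0)) =
      (a i - a j) * h 1 := by
  rw [cutW_sum]
  have h1 : ∀ u, (if cutSet a u = ∅ ∨ cutSet a u = Finset.univ then 0
      else h ((if i ∈ cutSet a u then (1:ℝ) else 0) - (if j ∈ cutSet a u then 1 else 0))) =
      (Set.Ico (a j) (a i)).indicator (fun _ => h 1) u := by
    intro u
    by_cases hu : u ∈ Set.Ico (a j) (a i)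
    · rw [Set.indicator_of_mem hu]
      have hi : i ∈ cutSet a u := (mem_cutSet a u i).mpr hu.2
      have hj : j ∉ cutSet a u := fun hj => absurd ((mem_cutSet a u j).mp hj) (not_lt.mpr hu.1)
      have hne : ¬ (cutSet a u = ∅ ∨ cutSet a u = Finset.univ) := by
        rintro (he | he)
        · rw [he] at hi; exact absurd hi (Finset.notMem_empty i)
        · rw [he] at hj; exact hj (Finset.mem_univ j)
      simp [hne, hi, hj]
    · rw [Set.indicator_of_notMem hu]
      have hij : (i ∈ cutSet a u ↔ j ∈ cutSet a u) := by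
        rw [mem_cutSet, mem_cutSet]
        simp only [Set.mem_Ico, not_and, not_lt] at hu
        constructor
        · intro hi
          by_contra hj
          exact absurd (hu (not_lt.mp hj)) (not_le.mpr hi)
        · intro hj
          exact lt_of_lt_of_le hj hle
      by_cases hj : j ∈ cutSet a u
      · simp [hij.mpr hj, hj, h0]
      · have hi : i ∉ cutSet a u := fun hi => hj (hij.mp hi)
        simp [hi, hj, h0]
  simp_rw [h1]
  rw [integral_indicator_const _ measurableSet_Ico]
  simp [Measure.real, Real.volume_Ico, ENNReal.toReal_ofReal (sub_nonneg.mpr hle)]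

lemma cutW_diff {ι : Type*} [Fintype ι] [DecidableEq ι] (a : ι → ℝ) (i j : ι) :
    ∑ S, cutW a S * ((if i ∈ S then (1:ℝ) else 0) - (if j ∈ S then 1 else 0)) = a i - a j := by
  rcases le_total (a j) (a i) with hle | hle
  · have := cutW_sum_comp_of_le a i j hle id rfl
    simpa using this
  · have := cutW_sum_comp_of_le a j i hle (fun z => -z) (by simp)
    simp only [neg_sub, mul_neg, mul_one] at this
    rw [this]

lemma cutW_absdiff {ι : Type*} [Fintype ι] [DecidableEq ι] (a : ι → ℝ) (i j : ι) :
    ∑ S, cutW a S * |(if i ∈ S then (1:ℝ) else 0) - (if j ∈ S then 1 else 0)| =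
      |a i - a j| := by
  rcases le_total (a j) (a i) with hle | hle
  · have := cutW_sum_comp_of_le a i j hle (fun z => |z|) (by simp)
    simp only [abs_one, mul_one] at this
    rw [this, abs_of_nonneg (sub_nonneg.mpr hle)]
  · have := cutW_sum_comp_of_le a j i hle (fun z => |z|) (by simp)
    simp only [abs_one, mul_one] at this
    rw [abs_sub_comm (a i) (a j), abs_of_nonneg (sub_nonneg.mpr hle), ← this]
    refine Finset.sum_congr rfl (fun S _ => ?_)
    rw [abs_sub_comm]

lemma cutW_le_sum {ι : Type*} [Fintype ι] [DecidableEq ι] (a : ι → ℝ) (S : Finset ι) :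
    cutW a S ≤ ∑ i, ∑ j, |a i - a j| := by
  by_cases hS : S = ∅ ∨ S = Finset.univ
  · have : cutW a S = 0 := by simp [cutW, hS]
    rw [this]
    exact Finset.sum_nonneg (fun i _ => Finset.sum_nonneg (fun j _ => abs_nonneg _))
  · have hS' : S ≠ ∅ ∧ S ≠ Finset.univ := by tauto
    obtain ⟨i, hi⟩ := Finset.nonempty_iff_ne_empty.mpr hS'.1
    obtain ⟨j, hj⟩ : ∃ j, j ∉ S := by
      by_contra hcon
      apply hS'.2
      ext j
      simp only [Finset.mem_univ, iff_true]
      by_contra hj
      exact hcon ⟨j, hj⟩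
    have h1 : cutW a S ≤ |a i - a j| := by
      rw [← cutW_absdiff a i j]
      have h2 : cutW a S = cutW a S *
          |(if i ∈ S then (1:ℝ) else 0) - (if j ∈ S then 1 else 0)| := by simp [hi, hj]
      rw [h2]
      exact Finset.single_le_sum
        (f := fun S => cutW a S * |(if i ∈ S then (1:ℝ) else 0) - (if j ∈ S then 1 else 0)|)
        (fun T _ => mul_nonneg (cutW_nonneg a T) (abs_nonneg _)) (Finset.mem_univ S)
    refine h1.trans ?_
    refine le_trans ?_ (Finset.single_le_sum (f := fun i => ∑ j, |a i - a j|)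
      (fun i _ => Finset.sum_nonneg (fun j _ => abs_nonneg _)) (Finset.mem_univ i))
    exact Finset.single_le_sum (f := fun j => |a i - a j|)
      (fun j _ => abs_nonneg _) (Finset.mem_univ j)

/-! ### The ℓ₁ part -/

lemma l1_norm (f : lp (fun _ : ℕ => ℝ) 1) : ‖f‖ = ∑' k, |f k| := by
  rw [lp.norm_eq_tsum_rpow (by simp)]
  simp

lemma l1_summable (f : lp (fun _ : ℕ => ℝ) 1) : Summable (fun k => |f k|) := by
  have := (lp.memℓp f).summable (by simp)
  simpa using this

/-- the sequence of weights of the cut `S` in the coordinates, as an element of `ℓ₁` -/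
def cutVec {ι : Type*} [Fintype ι] [DecidableEq ι] (x : ι → lp (fun _ : ℕ => ℝ) 1) (S : Finset ι) :
    lp (fun _ : ℕ => ℝ) 1 :=
  ⟨fun k => cutW (fun j => x j k) S, by
    apply memℓp_gen
    simp only [ENNReal.toReal_one, Real.rpow_one, Real.norm_eq_abs]
    refine Summable.of_nonneg_of_le (fun k => abs_nonneg _)
      (fun k => ?_) (summable_sum (s := Finset.univ)
        (f := fun (i : ι) (k : ℕ) => ∑ j, |x i k - x j k|) (fun i _ => summable_sum
          (s := Finset.univ) (f := fun (j : ι) (k : ℕ) => |x i k - x j k|)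
          (fun j _ => ?_)))
    · rw [abs_of_nonneg (cutW_nonneg _ _)]
      have := cutW_le_sum (fun j => x j k) S
      simpa using this
    · have := l1_summable (x i - x j)
      simpa using this⟩

lemma cutVec_apply {ι : Type*} [Fintype ι] [DecidableEq ι] (x : ι → lp (fun _ : ℕ => ℝ) 1) (S : Finset ι) (k : ℕ) :
    cutVec x S k = cutW (fun j => x j k) S := rfl

end

end CutsAux

open CutsAux in
/-- Finitely many points of `ℓ₁` admit a cut decomposition: weights `ν S ≥ 0` on the subsets `S` of
the index set and an (affine) map `J` from functions on subsets to `ℓ₁` which sends the indicator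
`S ↦ 1[i ∈ S]` to `x i`, is `1`-Lipschitz from the `ν`-weighted `ℓ₁` distance, and such that the
`ν`-distance of two indicators is at most the `ℓ₁` distance of the points.
(`ν_k S` = Lebesgue measure of `{u | ∀ j, u < x j k ↔ j ∈ S}` for `S ≠ ∅, univ`; `ν = ∑' k, ν_k`;
`J φ k = x i₀ k + ∑ S, ν_k S * (φ S - 1[i₀ ∈ S])`.) -/
theorem exists_cuts {ι : Type*} [Fintype ι] [DecidableEq ι] [Nonempty ι]
    (x : ι → lp (fun _ : ℕ => ℝ) 1) :
    ∃ (ν : Finset ι → ℝ) (J : (Finset ι → ℝ) → lp (fun _ : ℕ => ℝ) 1),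
      (∀ S, 0 ≤ ν S) ∧
      (∀ i, J (fun S => if i ∈ S then (1 : ℝ) else 0) = x i) ∧
      (∀ φ φ' : Finset ι → ℝ, ‖J φ - J φ'‖ ≤ ∑ S, ν S * |φ S - φ' S|) ∧
      (∀ i j, ∑ S, ν S * |(if i ∈ S then (1 : ℝ) else 0) - (if j ∈ S then (1 : ℝ) else 0)| ≤
        ‖x i - x j‖) := by
  let i0 : ι := Classical.arbitrary ι
  refine ⟨fun S => ‖cutVec x S‖,
    fun φ => x i0 + ∑ S, (φ S - (if i0 ∈ S then (1:ℝ) else 0)) • cutVec x S,
    fun S => norm_nonneg _, fun i => ?_, fun φ φ' => ?_, fun i j => ?_⟩
  · ext k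
    simp only [lp.coeFn_add, lp.coeFn_sum, lp.coeFn_smul, Pi.add_apply, Finset.sum_apply,
      Pi.smul_apply, smul_eq_mul, cutVec_apply]
    have := cutW_diff (fun j => x j k) i i0
    simp only [mul_comm (cutW _ _)] at this
    rw [this]; ring
  · have h1 : (x i0 + ∑ S, (φ S - (if i0 ∈ S then (1:ℝ) else 0)) • cutVec x S) -
        (x i0 + ∑ S, (φ' S - (if i0 ∈ S then (1:ℝ) else 0)) • cutVec x S) =
        ∑ S, (φ S - φ' S) • cutVec x S := by
      rw [add_sub_add_left_eq_sub, ← Finset.sum_sub_distrib]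
      refine Finset.sum_congr rfl (fun S _ => ?_)
      rw [← sub_smul]; congr 1; ring
    rw [h1]
    refine (norm_sum_le _ _).trans (le_of_eq ?_)
    refine Finset.sum_congr rfl (fun S _ => ?_)
    rw [norm_smul, Real.norm_eq_abs, mul_comm]
  · refine le_of_eq ?_
    rw [l1_norm]
    have h2 : ∀ S, ‖cutVec x S‖ = ∑' k, cutW (fun j => x j k) S := by
      intro S
      rw [l1_norm]
      refine tsum_congr (fun k => ?_)
      rw [cutVec_apply, abs_of_nonneg (cutW_nonneg _ _)]
    have h3 : ∀ S, Summable (fun k => cutW (fun j => x j k) S) := by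
      intro S
      have := l1_summable (cutVec x S)
      refine this.congr (fun k => ?_)
      rw [cutVec_apply, abs_of_nonneg (cutW_nonneg _ _)]
    simp_rw [h2, ← tsum_mul_right]
    rw [← Summable.tsum_finsetSum (fun S _ => (h3 S).mul_right _)]
    refine tsum_congr (fun k => ?_)
    rw [cutW_absdiff (fun j => x j k) i j]
    simp

end Crest.Agent.MC
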