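import Crest.Agent.MC.Defs

/-!
# S0171, piece P1: the abstract dynamic-programming lemma ("energy inequality")
-/

set_option autoImplicit false

namespace Crest.Agent.MC

open Finset

variable {ι : Type*} [Fintype ι] [DecidableEq ι]

namespace DPAux

/-- Linearity of the one-step average, in the form used below. -/
theorem sum_lin3 (A : Matrix ι ι ℝ) (j : ι) (hA1 : ∑ l, A j l = 1) (f g h : ι → ℝ)
    (p q k : ℝ) :
    ∑ l, A j l * (p * f l + q * g l + h l + k) =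
      p * ∑ l, A j l * f l + q * ∑ l, A j l * g l + ∑ l, A j l * h l + k := by
  have e : ∀ l, A j l * (p * f l + q * g l + h l + k) =
      p * (A j l * f l) + q * (A j l * g l) + A j l * h l + A j l * k := fun l => by ring
  simp only [e, Finset.sum_add_distrib, ← Finset.mul_sum, ← Finset.sum_mul, hA1, one_mul]

/-- Compensator of `Q`. -/
noncomputable def aa (A : Matrix ι ι ℝ) (Q : ℕ → ι → ι → ℝ) (r : ℕ) (j : ι) : ℝ :=
  ∑ l, A j l * Q r j l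

/-- Value function `E[(∑ a_v)^2]`. -/
noncomputable def U1 (A : Matrix ι ι ℝ) (ρ : ℕ → ι → ℝ) (Q : ℕ → ι → ι → ℝ) : ℕ → ι → ℝ
  | 0, _ => 0
  | r + 1, j => aa A Q r j ^ 2 + 2 * aa A Q r j * (∑ l, A j l * ρ r l) +
      ∑ l, A j l * U1 A ρ Q r l

/-- Value function `E[(∑ Q_v)^2]`. -/
noncomputable def U2 (A : Matrix ι ι ℝ) (ρ : ℕ → ι → ℝ) (Q : ℕ → ι → ι → ℝ) : ℕ → ι → ℝ
  | 0, _ => 0
  | r + 1, j => ∑ l, A j l * (Q r j l ^ 2 + 2 * Q r j l * ρ r l + U2 A ρ Q r l)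

variable (A : Matrix ι ι ℝ) (hA : ∀ i j, 0 ≤ A i j) (hA1 : ∀ i, ∑ j, A i j = 1)
    (Z Z2 ρ : ℕ → ι → ℝ) (Q : ℕ → ι → ι → ℝ)
    (hQ : ∀ r j l, 0 ≤ Q r j l)
    (hZ : ∀ r j, Z (r + 1) j = ∑ l, A j l * Z r l)
    (hZ2 : ∀ r j, Z2 (r + 1) j = ∑ l, A j l * Z2 r l)
    (hZ0 : ∀ j, Z 0 j ^ 2 ≤ Z2 0 j)
    (hρ0 : ∀ j, ρ 0 j = 0)
    (hρ : ∀ r j, ρ (r + 1) j = ∑ l, A j l * (Q r j l + ρ r l))
    (hρZ : ∀ r j, ρ r j ≤ Z r j)
    (hQZ : ∀ r j l, Q r j l ≤ Z (r + 1) j + Z r l)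

include hA in
theorem aa_nonneg (hQ : ∀ r j l, 0 ≤ Q r j l) (r : ℕ) (j : ι) : 0 ≤ aa A Q r j :=
  Finset.sum_nonneg fun l _ => mul_nonneg (hA j l) (hQ r j l)

theorem rho_succ' (hρ : ∀ r j, ρ (r + 1) j = ∑ l, A j l * (Q r j l + ρ r l)) (r : ℕ) (j : ι) :
    ρ (r + 1) j = aa A Q r j + ∑ l, A j l * ρ r l := by
  rw [hρ r j, aa, ← Finset.sum_add_distrib]
  exact Finset.sum_congr rfl fun l _ => by ring

theorem H1_succ' (r : ℕ) (j : ι) :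
    H1 A Z Q (r + 1) j = aa A Q r j * Z (r + 1) j + ∑ l, A j l * H1 A Z Q r l := by
  show ∑ l, A j l * (Q r j l * Z (r + 1) j + H1 A Z Q r l) = _
  rw [aa, Finset.sum_mul, ← Finset.sum_add_distrib]
  exact Finset.sum_congr rfl fun l _ => by ring

include hA in
theorem U1_le (hQ : ∀ r j l, 0 ≤ Q r j l)
    (hρ : ∀ r j, ρ (r + 1) j = ∑ l, A j l * (Q r j l + ρ r l))
    (hρZ : ∀ r j, ρ r j ≤ Z r j) :
    ∀ r j, U1 A ρ Q r j ≤ 2 * H1 A Z Q r j := by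
  intro r
  induction r with
  | zero => intro j; simp [U1, H1]
  | succ r ih =>
    intro j
    have ha := aa_nonneg A hA Q hQ r j
    have h1 := rho_succ' A ρ Q hρ r j
    have h2 := hρZ (r + 1) j
    rw [H1_succ']
    show aa A Q r j ^ 2 + 2 * aa A Q r j * (∑ l, A j l * ρ r l) +
      ∑ l, A j l * U1 A ρ Q r l ≤ _
    have h3 : ∑ l, A j l * U1 A ρ Q r l ≤ 2 * ∑ l, A j l * H1 A Z Q r l := by
      rw [Finset.mul_sum]
      refine Finset.sum_le_sum fun l _ => ?_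
      have := mul_le_mul_of_nonneg_left (ih l) (hA j l)
      linarith
    have h4 : aa A Q r j ^ 2 + 2 * aa A Q r j * (∑ l, A j l * ρ r l) ≤
        2 * (aa A Q r j * Z (r + 1) j) := by
      have e : ∑ l, A j l * ρ r l = ρ (r + 1) j - aa A Q r j := by linarith
      rw [e]
      nlinarith [mul_le_mul_of_nonneg_left h2 ha, sq_nonneg (aa A Q r j)]
    linarith

include hA hA1 in
theorem amgm1 (hZ : ∀ r j, Z (r + 1) j = ∑ l, A j l * Z r l)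
    (hZ2 : ∀ r j, Z2 (r + 1) j = ∑ l, A j l * Z2 r l)
    (hZ0 : ∀ j, Z 0 j ^ 2 ≤ Z2 0 j) (hρ0 : ∀ j, ρ 0 j = 0)
    (hρ : ∀ r j, ρ (r + 1) j = ∑ l, A j l * (Q r j l + ρ r l)) :
    ∀ r j (c ε : ℝ), 0 < ε →
      c * Z r j + H1 A Z Q r j ≤
        ε * Z2 r j + (c ^ 2 + 2 * c * ρ r j + U1 A ρ Q r j) / (4 * ε) := by
  intro r
  induction r with
  | zero =>
    intro j c ε hε
    simp only [H1, U1, hρ0, mul_zero, add_zero]
    have h0 := hZ0 j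
    have h4 : (0 : ℝ) < 4 * ε := by linarith
    rw [← sub_nonneg]
    have e : ε * Z2 0 j + c ^ 2 / (4 * ε) - c * Z 0 j =
        ε * (Z2 0 j - Z 0 j ^ 2) + (2 * ε * Z 0 j - c) ^ 2 / (4 * ε) := by
      field_simp
      ring
    rw [e]
    have := mul_nonneg hε.le (sub_nonneg.mpr h0)
    have := div_nonneg (sq_nonneg (2 * ε * Z 0 j - c)) h4.le
    linarith
  | succ r ih =>
    intro j c ε hε
    set a := aa A Q r j with ha
    have hr := rho_succ' A ρ Q hρ r j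
    have e1 : c * Z (r + 1) j + H1 A Z Q (r + 1) j =
        ∑ l, A j l * ((c + a) * Z r l + 1 * H1 A Z Q r l + 0 + 0) := by
      rw [sum_lin3 A j (hA1 j), H1_succ', hZ r j]
      simp
      ring
    have e2 : ε * Z2 (r + 1) j +
        (c ^ 2 + 2 * c * ρ (r + 1) j + U1 A ρ Q (r + 1) j) / (4 * ε) =
        ∑ l, A j l * (ε * Z2 r l + (2 * (c + a) / (4 * ε)) * ρ r l +
          U1 A ρ Q r l / (4 * ε) + (c + a) ^ 2 / (4 * ε)) := by
      rw [sum_lin3 A j (hA1 j), hZ2 r j, hr]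
      show _ + (c ^ 2 + 2 * c * (a + ∑ l, A j l * ρ r l) +
        (a ^ 2 + 2 * a * (∑ l, A j l * ρ r l) + ∑ l, A j l * U1 A ρ Q r l)) / (4 * ε) = _
      have e3 : ∑ l, A j l * (U1 A ρ Q r l / (4 * ε)) =
          (∑ l, A j l * U1 A ρ Q r l) / (4 * ε) := by
        rw [Finset.sum_div]
        exact Finset.sum_congr rfl fun l _ => by ring
      rw [e3]
      field_simp
      ring
    rw [e1, e2]
    refine Finset.sum_le_sum fun l _ => mul_le_mul_of_nonneg_left ?_ (hA j l)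
    have := ih l (c + a) ε hε
    have e4 : ε * Z2 r l + ((c + a) ^ 2 + 2 * (c + a) * ρ r l + U1 A ρ Q r l) / (4 * ε) =
        ε * Z2 r l + (2 * (c + a) / (4 * ε)) * ρ r l + U1 A ρ Q r l / (4 * ε) +
          (c + a) ^ 2 / (4 * ε) := by
      field_simp
      ring
    linarith

include hA hA1 in
theorem H1_le (hQ : ∀ r j l, 0 ≤ Q r j l)
    (hZ : ∀ r j, Z (r + 1) j = ∑ l, A j l * Z r l)
    (hZ2 : ∀ r j, Z2 (r + 1) j = ∑ l, A j l * Z2 r l)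
    (hZ0 : ∀ j, Z 0 j ^ 2 ≤ Z2 0 j) (hρ0 : ∀ j, ρ 0 j = 0)
    (hρ : ∀ r j, ρ (r + 1) j = ∑ l, A j l * (Q r j l + ρ r l))
    (hρZ : ∀ r j, ρ r j ≤ Z r j) (r : ℕ) (j : ι) :
    H1 A Z Q r j ≤ 2 * Z2 r j := by
  have h1 := amgm1 A hA hA1 Z Z2 ρ Q hZ hZ2 hZ0 hρ0 hρ r j 0 1 one_pos
  have h2 := U1_le A hA Z ρ Q hQ hρ hρZ r j
  norm_num at h1
  linarith

include hA in
theorem U2_le (hQ : ∀ r j l, 0 ≤ Q r j l)
    (hρZ : ∀ r j, ρ r j ≤ Z r j)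
    (hQZ : ∀ r j l, Q r j l ≤ Z (r + 1) j + Z r l) :
    ∀ r j, U2 A ρ Q r j ≤ H1 A Z Q r j + 3 * H2 A Z Q r j := by
  intro r
  induction r with
  | zero => intro j; simp [U2, H1, H2]
  | succ r ih =>
    intro j
    show ∑ l, A j l * (Q r j l ^ 2 + 2 * Q r j l * ρ r l + U2 A ρ Q r l) ≤
      ∑ l, A j l * (Q r j l * Z (r + 1) j + H1 A Z Q r l) +
        3 * ∑ l, A j l * (Q r j l * Z r l + H2 A Z Q r l)
    rw [Finset.mul_sum, ← Finset.sum_add_distrib]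
    refine Finset.sum_le_sum fun l _ => ?_
    have hq := hQ r j l
    have h1 : Q r j l ^ 2 ≤ Q r j l * (Z (r + 1) j + Z r l) := by
      rw [sq]; exact mul_le_mul_of_nonneg_left (hQZ r j l) hq
    have h2 : Q r j l * ρ r l ≤ Q r j l * Z r l := mul_le_mul_of_nonneg_left (hρZ r l) hq
    have h3 : Q r j l ^ 2 + 2 * Q r j l * ρ r l + U2 A ρ Q r l ≤
        (Q r j l * Z (r + 1) j + H1 A Z Q r l) + 3 * (Q r j l * Z r l + H2 A Z Q r l) := by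
      have := ih l
      nlinarith
    have := mul_le_mul_of_nonneg_left h3 (hA j l)
    linarith

include hA hA1 in
theorem amgm2 (hZ : ∀ r j, Z (r + 1) j = ∑ l, A j l * Z r l)
    (hZ2 : ∀ r j, Z2 (r + 1) j = ∑ l, A j l * Z2 r l)
    (hZ0 : ∀ j, Z 0 j ^ 2 ≤ Z2 0 j) (hρ0 : ∀ j, ρ 0 j = 0)
    (hρ : ∀ r j, ρ (r + 1) j = ∑ l, A j l * (Q r j l + ρ r l)) :
    ∀ r j (c ε : ℝ), 0 < ε →
      c * Z r j + H2 A Z Q r j ≤
        ε * Z2 r j + (c ^ 2 + 2 * c * ρ r j + U2 A ρ Q r j) / (4 * ε) := by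
  intro r
  induction r with
  | zero =>
    intro j c ε hε
    simp only [H2, U2, hρ0, mul_zero, add_zero]
    have h0 := hZ0 j
    have h4 : (0 : ℝ) < 4 * ε := by linarith
    rw [← sub_nonneg]
    have e : ε * Z2 0 j + c ^ 2 / (4 * ε) - c * Z 0 j =
        ε * (Z2 0 j - Z 0 j ^ 2) + (2 * ε * Z 0 j - c) ^ 2 / (4 * ε) := by
      field_simp
      ring
    rw [e]
    have := mul_nonneg hε.le (sub_nonneg.mpr h0)
    have := div_nonneg (sq_nonneg (2 * ε * Z 0 j - c)) h4.le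
    linarith
  | succ r ih =>
    intro j c ε hε
    have h4 : (0 : ℝ) < 4 * ε := by linarith
    have e1 : c * Z (r + 1) j + H2 A Z Q (r + 1) j =
        ∑ l, A j l * ((c + Q r j l) * Z r l + H2 A Z Q r l) := by
      show c * Z (r + 1) j + ∑ l, A j l * (Q r j l * Z r l + H2 A Z Q r l) = _
      rw [hZ r j, Finset.mul_sum, ← Finset.sum_add_distrib]
      exact Finset.sum_congr rfl fun l _ => by ring
    have e2 : ε * Z2 (r + 1) j +
        (c ^ 2 + 2 * c * ρ (r + 1) j + U2 A ρ Q (r + 1) j) / (4 * ε) =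
        ∑ l, A j l * (ε * Z2 r l + ((c + Q r j l) ^ 2 + 2 * (c + Q r j l) * ρ r l +
          U2 A ρ Q r l) / (4 * ε)) := by
      have e3 : ∀ l, A j l * (ε * Z2 r l + ((c + Q r j l) ^ 2 + 2 * (c + Q r j l) * ρ r l +
          U2 A ρ Q r l) / (4 * ε)) =
          ε * (A j l * Z2 r l) + (c ^ 2 / (4 * ε)) * A j l +
            (2 * c / (4 * ε)) * (A j l * (Q r j l + ρ r l)) +
            (1 / (4 * ε)) * (A j l * (Q r j l ^ 2 + 2 * Q r j l * ρ r l + U2 A ρ Q r l)) := by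
        intro l
        field_simp
        ring
      simp only [e3, Finset.sum_add_distrib, ← Finset.mul_sum, hA1 j]
      rw [hZ2 r j, hρ r j]
      show _ + (c ^ 2 + 2 * c * (∑ l, A j l * (Q r j l + ρ r l)) +
        ∑ l, A j l * (Q r j l ^ 2 + 2 * Q r j l * ρ r l + U2 A ρ Q r l)) / (4 * ε) = _
      field_simp
      ring
    rw [e1, e2]
    exact Finset.sum_le_sum fun l _ =>
      mul_le_mul_of_nonneg_left (ih l (c + Q r j l) ε hε) (hA j l)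

end DPAux

/-- The abstract DP lemma.  Path-space meaning: `Z` is a martingale with `E Z_T^2 = Z2`, `ρ` a
potential dominated by `Z` whose drift is `Q`, `Q` dominated by `Z_v + Z_{v+1}`; then
`E ∑ Q_v Z_v ≤ 2 E Z_T^2` and `E ∑ Q_v Z_{v+1} ≤ (18/5) E Z_T^2`. -/
theorem dp_bound (A : Matrix ι ι ℝ) (hA : ∀ i j, 0 ≤ A i j) (hA1 : ∀ i, ∑ j, A i j = 1)
    (Z Z2 ρ : ℕ → ι → ℝ) (Q : ℕ → ι → ι → ℝ)
    (hQ : ∀ r j l, 0 ≤ Q r j l)
    (hZ : ∀ r j, Z (r + 1) j = ∑ l, A j l * Z r l)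
    (hZ2 : ∀ r j, Z2 (r + 1) j = ∑ l, A j l * Z2 r l)
    (hZ0 : ∀ j, Z 0 j ^ 2 ≤ Z2 0 j)
    (hρ0 : ∀ j, ρ 0 j = 0)
    (hρ : ∀ r j, ρ (r + 1) j = ∑ l, A j l * (Q r j l + ρ r l))
    (hρZ : ∀ r j, ρ r j ≤ Z r j)
    (hQZ : ∀ r j l, Q r j l ≤ Z (r + 1) j + Z r l) :
    ∀ r j, H1 A Z Q r j ≤ 2 * Z2 r j ∧ H2 A Z Q r j ≤ 18 / 5 * Z2 r j := by
  intro r j
  have h1 := DPAux.H1_le A hA hA1 Z Z2 ρ Q hQ hZ hZ2 hZ0 hρ0 hρ hρZ r j
  refine ⟨h1, ?_⟩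
  have h2 := DPAux.amgm2 A hA hA1 Z Z2 ρ Q hZ hZ2 hZ0 hρ0 hρ r j 0 2 (by norm_num)
  have h3 := DPAux.U2_le A hA Z ρ Q hQ hρZ hQZ r j
  norm_num at h2
  linarith

end Crest.Agent.MC
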