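import Mathlib

/-!
# S0171 (ℓ₁ has metric Markov cotype 2): shared definitions

Setting: a finite state space `ι`, a stochastic matrix `A` reversible for the probability vector `w`,
a finite family of *cuts* `s : σ` with weights `ν s ≥ 0` and `{0,1}`-valued indicators `c s : ι → ℝ`.
The state `i` is represented by the function `fun s => c s i` on cuts, and the distance on functions
on cuts is `dnu ν f g = ∑ s, ν s * |f s - g s|`.

The smoothed points: `mm A c r j s = ∑ l, (A^r) j l * c s l` (probability that the chain started at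
`j` is on the `1`-side of the cut `s` after `r` steps), thresholded by `psi`, and averaged over
`r < t` (`phi`).  See `Crest/Agent/MC/README` in the team messages (helper3) for the proof plan.
-/

set_option autoImplicit false

namespace Crest.Agent.MC

open Finset

variable {ι σ : Type*} [Fintype ι] [DecidableEq ι] [Fintype σ]

/-- The threshold function: `0` on `[0,1/4]`, `1` on `[3/4,1]`, slope `2` in between. -/
noncomputable def psi (p : ℝ) : ℝ := max 0 (min 1 (2 * p - 1 / 2))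

/-- `mm A c r j s = ∑ l, (A^r) j l * c s l`. -/
noncomputable def mm (A : Matrix ι ι ℝ) (c : σ → ι → ℝ) (r : ℕ) (j : ι) (s : σ) : ℝ :=
  ∑ l, (A ^ r) j l * c s l

/-- The weighted `ℓ₁` distance between two functions on cuts. -/
def dnu (ν : σ → ℝ) (f g : σ → ℝ) : ℝ := ∑ s, ν s * |f s - g s|

/-- The thresholded law after `r` steps. -/
noncomputable def phiR (A : Matrix ι ι ℝ) (c : σ → ι → ℝ) (r : ℕ) (j : ι) : σ → ℝ :=
  fun s => psi (mm A c r j s)

/-- The smoothed point attached to the state `i` at scale `t`. -/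
noncomputable def phi (A : Matrix ι ι ℝ) (c : σ → ι → ℝ) (t : ℕ) (i : ι) : σ → ℝ :=
  fun s => (1 / (t : ℝ)) * ∑ r ∈ range t, (phiR A c r i s + phiR A c (r + 1) i s) / 2

/-- The cut distance between two states. -/
def DD (ν : σ → ℝ) (c : σ → ι → ℝ) (i l : ι) : ℝ := ∑ s, ν s * |c s i - c s l|

/-- `Psi s = E d(X_0, X_s)^2`. -/
noncomputable def Psi (A : Matrix ι ι ℝ) (w : ι → ℝ) (ν : σ → ℝ) (c : σ → ι → ℝ) (s : ℕ) : ℝ :=
  ∑ i, ∑ l, w i * (A ^ s) i l * DD ν c i l ^ 2

/-- The forward increment: remaining time `r + 1` at `i`, remaining time `r` at `j`. -/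
noncomputable def delta (A : Matrix ι ι ℝ) (ν : σ → ℝ) (c : σ → ι → ℝ) (r : ℕ) (i j : ι) : ℝ :=
  ∑ s, ν s * |phiR A c (r + 1) i s - phiR A c r j s|

/-- The stationary second moment of the forward increment. -/
noncomputable def gg (A : Matrix ι ι ℝ) (w : ι → ℝ) (ν : σ → ℝ) (c : σ → ι → ℝ) (r : ℕ) : ℝ :=
  ∑ i, ∑ j, w i * A i j * delta A ν c r i j ^ 2

/-- Value function of the sum of squared forward increments over `r` remaining steps. -/
noncomputable def GG (A : Matrix ι ι ℝ) (ν : σ → ℝ) (c : σ → ι → ℝ) : ℕ → ι → ℝ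
  | 0, _ => 0
  | r + 1, j => ∑ l, A j l * (delta A ν c r j l ^ 2 + GG A ν c r l)

/-- `ZZ c₀ r j = E_j d(x_{c₀}, X_r)`. -/
noncomputable def ZZ (A : Matrix ι ι ℝ) (ν : σ → ℝ) (c : σ → ι → ℝ) (c₀ : ι) (r : ℕ) (j : ι) : ℝ :=
  ∑ l, (A ^ r) j l * DD ν c c₀ l

/-- `ZZ2 c₀ r j = E_j d(x_{c₀}, X_r)^2`. -/
noncomputable def ZZ2 (A : Matrix ι ι ℝ) (ν : σ → ℝ) (c : σ → ι → ℝ) (c₀ : ι) (r : ℕ) (j : ι) : ℝ :=
  ∑ l, (A ^ r) j l * DD ν c c₀ l ^ 2

/-- Half the expected distance between two independent copies of `X_r` started at `j`. -/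
noncomputable def rho (A : Matrix ι ι ℝ) (ν : σ → ℝ) (c : σ → ι → ℝ) (r : ℕ) (j : ι) : ℝ :=
  ∑ s, ν s * (mm A c r j s * (1 - mm A c r j s))

/-- The quadratic variation of the step `j → l` (remaining time `r + 1 → r`), summed over cuts. -/
noncomputable def QQ (A : Matrix ι ι ℝ) (ν : σ → ℝ) (c : σ → ι → ℝ) (r : ℕ) (j l : ι) : ℝ :=
  ∑ s, ν s * (mm A c r l s - mm A c (r + 1) j s) ^ 2

/-- Abstract value function `E[∑ Q_v Z_v]`. -/
noncomputable def H1 (A : Matrix ι ι ℝ) (Z : ℕ → ι → ℝ) (Q : ℕ → ι → ι → ℝ) : ℕ → ι → ℝ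
  | 0, _ => 0
  | r + 1, j => ∑ l, A j l * (Q r j l * Z (r + 1) j + H1 A Z Q r l)

/-- Abstract value function `E[∑ Q_v Z_{v+1}]`. -/
noncomputable def H2 (A : Matrix ι ι ℝ) (Z : ℕ → ι → ℝ) (Q : ℕ → ι → ι → ℝ) : ℕ → ι → ℝ
  | 0, _ => 0
  | r + 1, j => ∑ l, A j l * (Q r j l * Z r l + H2 A Z Q r l)

end Crest.Agent.MC
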