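import Crest.Agent.MC.Defs
import Crest.Agent.MC.Step

/-!
# S0171, piece P2b: the one-step bound on `delta`

Active cuts (`1/8 < m < 7/8`) are handled by Cauchy–Schwarz against `rho`, inactive cuts by
`|Δψ| ≤ 4 (Δm)^2`.
-/

set_option autoImplicit false

namespace Crest.Agent.MC.Aux

open Finset

/-- `psi` is `2`-Lipschitz. -/
theorem psi_lip (a b : ℝ) : |psi a - psi b| ≤ 2 * |a - b| := by
  unfold psi
  rcases abs_cases (a - b) with ⟨h, _⟩ | ⟨h, _⟩ <;> rw [h] <;>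
  rw [abs_le] <;> constructor <;>
  simp only [max_def, min_def] <;> split_ifs <;> linarith

/-- Inactive cut on the low side. -/
theorem psi_inactive_low (a b : ℝ) (ha : a ≤ 1 / 8) : |psi a - psi b| ≤ 4 * (b - a) ^ 2 := by
  unfold psi
  rw [abs_le]
  constructor <;>
  simp only [max_def, min_def] <;> split_ifs <;> nlinarith [sq_nonneg (2 * (b - a) - 1 / 2)]

/-- Inactive cut on the high side. -/
theorem psi_inactive_high (a b : ℝ) (ha : 7 / 8 ≤ a) : |psi a - psi b| ≤ 4 * (b - a) ^ 2 := by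
  unfold psi
  rw [abs_le]
  constructor <;>
  simp only [max_def, min_def] <;> split_ifs <;> nlinarith [sq_nonneg (2 * (b - a) + 1 / 2)]

/-- The abstract one-step bound (pure finite sums). -/
theorem abstract_step {σ : Type*} [Fintype σ] (ν a b : σ → ℝ) (hν : ∀ s, 0 ≤ ν s)
    (ha : ∀ s, 0 ≤ a s ∧ a s ≤ 1) (Z1 Z0 : ℝ)
    (hρ : ∑ s, ν s * (a s * (1 - a s)) ≤ Z1)
    (hQ : ∑ s, ν s * (b s - a s) ^ 2 ≤ Z1 + Z0) :
    (∑ s, ν s * |psi (a s) - psi (b s)|) ^ 2 ≤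
      106 * ((∑ s, ν s * (b s - a s) ^ 2) * Z1) + 32 * ((∑ s, ν s * (b s - a s) ^ 2) * Z0) := by
  classical
  set Act : Finset σ := univ.filter (fun s => 1 / 8 < a s ∧ a s < 7 / 8) with hAct
  set Ina : Finset σ := univ.filter (fun s => ¬ (1 / 8 < a s ∧ a s < 7 / 8)) with hIna
  set Q : ℝ := ∑ s, ν s * (b s - a s) ^ 2 with hQdef
  set X : ℝ := ∑ s ∈ Act, ν s * |a s - b s| with hX
  set Y : ℝ := ∑ s ∈ Ina, ν s * (b s - a s) ^ 2 with hY
  set N : ℝ := ∑ s ∈ Act, ν s with hN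
  set Qa : ℝ := ∑ s ∈ Act, ν s * (b s - a s) ^ 2 with hQa
  have hsplit : ∀ f : σ → ℝ, ∑ s, f s = ∑ s ∈ Act, f s + ∑ s ∈ Ina, f s := by
    intro f
    rw [hAct, hIna, Finset.sum_filter_add_sum_filter_not]
  have hQsplit : Q = Qa + Y := hsplit _
  have hX0 : 0 ≤ X := Finset.sum_nonneg fun s _ => mul_nonneg (hν s) (abs_nonneg _)
  have hY0 : 0 ≤ Y := Finset.sum_nonneg fun s _ => mul_nonneg (hν s) (sq_nonneg _)
  have hN0 : 0 ≤ N := Finset.sum_nonneg fun s _ => hν s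
  have hQa0 : 0 ≤ Qa := Finset.sum_nonneg fun s _ => mul_nonneg (hν s) (sq_nonneg _)
  have hQ0 : 0 ≤ Q := Finset.sum_nonneg fun s _ => mul_nonneg (hν s) (sq_nonneg _)
  -- the bound on `delta`
  have hdelta : ∑ s, ν s * |psi (a s) - psi (b s)| ≤ 2 * X + 4 * Y := by
    rw [hsplit]
    have h1 : ∑ s ∈ Act, ν s * |psi (a s) - psi (b s)| ≤ 2 * X := by
      rw [hX, Finset.mul_sum]
      refine Finset.sum_le_sum fun s _ => ?_
      have := psi_lip (a s) (b s)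
      nlinarith [hν s]
    have h2 : ∑ s ∈ Ina, ν s * |psi (a s) - psi (b s)| ≤ 4 * Y := by
      rw [hY, Finset.mul_sum]
      refine Finset.sum_le_sum fun s hs => ?_
      have hs' : ¬ (1 / 8 < a s ∧ a s < 7 / 8) := by
        simpa [hIna] using hs
      have hb : |psi (a s) - psi (b s)| ≤ 4 * (b s - a s) ^ 2 := by
        by_cases h : a s ≤ 1 / 8
        · exact psi_inactive_low _ _ h
        · refine psi_inactive_high _ _ ?_
          by_contra h'
          exact hs' ⟨lt_of_not_ge h, lt_of_not_ge h'⟩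
      nlinarith [hν s]
    linarith
  have hdelta0 : 0 ≤ ∑ s, ν s * |psi (a s) - psi (b s)| :=
    Finset.sum_nonneg fun s _ => mul_nonneg (hν s) (abs_nonneg _)
  -- Cauchy–Schwarz on the active cuts
  have hCS : X ^ 2 ≤ N * Qa := by
    have := Finset.sum_mul_sq_le_sq_mul_sq Act (fun s => Real.sqrt (ν s))
      (fun s => Real.sqrt (ν s) * |a s - b s|)
    have e1 : ∑ s ∈ Act, Real.sqrt (ν s) * (Real.sqrt (ν s) * |a s - b s|) = X := by
      rw [hX]
      refine Finset.sum_congr rfl fun s _ => ?_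
      rw [← mul_assoc, Real.mul_self_sqrt (hν s)]
    have e2 : ∑ s ∈ Act, Real.sqrt (ν s) ^ 2 = N := by
      rw [hN]
      refine Finset.sum_congr rfl fun s _ => ?_
      rw [Real.sq_sqrt (hν s)]
    have e3 : ∑ s ∈ Act, (Real.sqrt (ν s) * |a s - b s|) ^ 2 = Qa := by
      rw [hQa]
      refine Finset.sum_congr rfl fun s _ => ?_
      rw [mul_pow, Real.sq_sqrt (hν s), sq_abs]
      ring
    rw [e1, e2, e3] at this
    exact this
  -- the mass of the active cuts is controlled by `rho`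
  have hNle : N * (7 / 64) ≤ Z1 := by
    have h1 : N * (7 / 64) ≤ ∑ s ∈ Act, ν s * (a s * (1 - a s)) := by
      rw [hN, Finset.sum_mul]
      refine Finset.sum_le_sum fun s hs => ?_
      have hs' : 1 / 8 < a s ∧ a s < 7 / 8 := by
        simpa [hAct] using hs
      have : 7 / 64 ≤ a s * (1 - a s) := by nlinarith [hs'.1, hs'.2]
      exact mul_le_mul_of_nonneg_left this (hν s)
    have h2 : ∑ s ∈ Act, ν s * (a s * (1 - a s)) ≤ ∑ s, ν s * (a s * (1 - a s)) := by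
      rw [hsplit (fun s => ν s * (a s * (1 - a s)))]
      have : 0 ≤ ∑ s ∈ Ina, ν s * (a s * (1 - a s)) :=
        Finset.sum_nonneg fun s _ =>
          mul_nonneg (hν s) (mul_nonneg (ha s).1 (by linarith [(ha s).2]))
      linarith
    linarith
  have hZ1 : 0 ≤ Z1 := by nlinarith
  have hYQ : Y ≤ Q := by linarith
  have hQaQ : Qa ≤ Q := by linarith
  -- assemble
  have step1 : (∑ s, ν s * |psi (a s) - psi (b s)|) ^ 2 ≤ (2 * X + 4 * Y) ^ 2 :=
    pow_le_pow_left₀ hdelta0 hdelta 2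
  have step2 : (2 * X + 4 * Y) ^ 2 ≤ 8 * X ^ 2 + 32 * Y ^ 2 := by
    nlinarith [sq_nonneg (2 * X - 4 * Y)]
  have step3 : 8 * X ^ 2 ≤ 8 * (64 / 7) * (Q * Z1) := by
    have h1 : N * Qa ≤ (64 / 7 * Z1) * Q := by
      have hN' : N ≤ 64 / 7 * Z1 := by linarith
      exact mul_le_mul hN' hQaQ hQa0 (by positivity)
    nlinarith
  have step4 : 32 * Y ^ 2 ≤ 32 * (Q * (Z1 + Z0)) := by
    have h1 : Y ^ 2 ≤ Q * Q := by nlinarith
    have h2 : Q * Q ≤ Q * (Z1 + Z0) := mul_le_mul_of_nonneg_left hQ hQ0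
    linarith
  have hQZ1 : 0 ≤ Q * Z1 := mul_nonneg hQ0 hZ1
  nlinarith

end Crest.Agent.MC.Aux

namespace Crest.Agent.MC

open Finset

variable {ι σ : Type*} [Fintype ι] [DecidableEq ι] [Fintype σ]

/-- The one-step bound: active cuts (`1/8 < m < 7/8`) by Cauchy–Schwarz against `rho`, inactive
cuts by `|Δψ| ≤ 4 (Δm)^2`. -/
theorem delta_sq_le (A : Matrix ι ι ℝ) (hA : ∀ i j, 0 ≤ A i j) (hA1 : ∀ i, ∑ j, A i j = 1)
    (ν : σ → ℝ) (hν : ∀ s, 0 ≤ ν s) (c : σ → ι → ℝ) (hc : ∀ s i, c s i = 0 ∨ c s i = 1)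
    (c₀ : ι) (r : ℕ) (j l : ι) :
    delta A ν c r j l ^ 2 ≤
      106 * (QQ A ν c r j l * ZZ A ν c c₀ (r + 1) j) + 32 * (QQ A ν c r j l * ZZ A ν c c₀ r l) :=
  Aux.abstract_step ν (fun s => mm A c (r + 1) j s) (fun s => mm A c r l s) hν
    (fun s => mm_mem A hA hA1 c hc (r + 1) j s) (ZZ A ν c c₀ (r + 1) j) (ZZ A ν c c₀ r l)
    (rho_le_ZZ A hA hA1 ν hν c hc c₀ (r + 1) j) (QQ_le A hA hA1 ν hν c hc c₀ r j l)

end Crest.Agent.MC
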