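import Crest.Agent.MC.Defs
import Crest.Agent.MC.DP
import Crest.Agent.MC.Step
import Crest.Agent.MC.StepDelta
import Crest.Agent.MC.Chain

/-!
# S0171, piece P5: the finite cut-space theorem
-/

set_option autoImplicit false

namespace Crest.Agent.MC

open Finset

variable {ι σ : Type*} [Fintype ι] [DecidableEq ι] [Fintype σ]

namespace MainAux

/-- The value function of the squared increments is dominated by the abstract value functions. -/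
theorem GG_le_H (A : Matrix ι ι ℝ) (hA : ∀ i j, 0 ≤ A i j) (hA1 : ∀ i, ∑ j, A i j = 1)
    (ν : σ → ℝ) (hν : ∀ s, 0 ≤ ν s) (c : σ → ι → ℝ) (hc : ∀ s i, c s i = 0 ∨ c s i = 1)
    (c₀ : ι) : ∀ (r : ℕ) (j : ι), GG A ν c r j ≤
      106 * H1 A (ZZ A ν c c₀) (QQ A ν c) r j + 32 * H2 A (ZZ A ν c c₀) (QQ A ν c) r j := by
  intro r
  induction r with
  | zero =>
    intro j
    simp [GG, H1, H2]
  | succ r ih =>
    intro j
    have e : 106 * H1 A (ZZ A ν c c₀) (QQ A ν c) (r + 1) j +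
        32 * H2 A (ZZ A ν c c₀) (QQ A ν c) (r + 1) j =
        ∑ l, A j l * (106 * (QQ A ν c r j l * ZZ A ν c c₀ (r + 1) j) +
          32 * (QQ A ν c r j l * ZZ A ν c c₀ r l) +
          (106 * H1 A (ZZ A ν c c₀) (QQ A ν c) r l + 32 * H2 A (ZZ A ν c c₀) (QQ A ν c) r l)) := by
      show 106 * (∑ l, A j l * (QQ A ν c r j l * ZZ A ν c c₀ (r + 1) j +
          H1 A (ZZ A ν c c₀) (QQ A ν c) r l)) +
        32 * (∑ l, A j l * (QQ A ν c r j l * ZZ A ν c c₀ r l +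
          H2 A (ZZ A ν c c₀) (QQ A ν c) r l)) = _
      rw [Finset.mul_sum, Finset.mul_sum, ← Finset.sum_add_distrib]
      exact Finset.sum_congr rfl fun l _ => by ring
    rw [e]
    show ∑ l, A j l * (delta A ν c r j l ^ 2 + GG A ν c r l) ≤ _
    refine Finset.sum_le_sum fun l _ => mul_le_mul_of_nonneg_left ?_ (hA j l)
    exact add_le_add (delta_sq_le A hA hA1 ν hν c hc c₀ r j l) (ih l)

theorem ZZ2_nonneg (A : Matrix ι ι ℝ) (hA : ∀ i j, 0 ≤ A i j)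
    (ν : σ → ℝ) (c : σ → ι → ℝ) (c₀ : ι) (r : ℕ) (j : ι) : 0 ≤ ZZ2 A ν c c₀ r j :=
  Finset.sum_nonneg fun l _ => mul_nonneg (pow_nonneg_entry A hA r j l) (sq_nonneg _)

end MainAux

/-- Thresholded martingale cotype in DP form. -/
theorem GG_le (A : Matrix ι ι ℝ) (hA : ∀ i j, 0 ≤ A i j) (hA1 : ∀ i, ∑ j, A i j = 1)
    (ν : σ → ℝ) (hν : ∀ s, 0 ≤ ν s) (c : σ → ι → ℝ) (hc : ∀ s i, c s i = 0 ∨ c s i = 1)
    (c₀ : ι) (T : ℕ) (j : ι) : GG A ν c T j ≤ 328 * ZZ2 A ν c c₀ T j := by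
  have h := MainAux.GG_le_H A hA hA1 ν hν c hc c₀ T j
  have hdp := dp_bound A hA hA1 (ZZ A ν c c₀) (ZZ2 A ν c c₀) (rho A ν c) (QQ A ν c)
    (fun r j l => QQ_nonneg A ν hν c r j l)
    (fun r j => ZZ_succ A ν c c₀ r j)
    (fun r j => ZZ2_succ A ν c c₀ r j)
    (fun j => ZZ_zero_sq A ν c c₀ j)
    (fun j => rho_zero A ν c hc j)
    (fun r j => rho_succ A hA1 ν c r j)
    (fun r j => rho_le_ZZ A hA hA1 ν hν c hc c₀ r j)
    (fun r j l => QQ_le A hA hA1 ν hν c hc c₀ r j l) T j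
  have h0 := MainAux.ZZ2_nonneg A hA ν c c₀ T j
  linarith [hdp.1, hdp.2]

theorem sum_gg_le (A : Matrix ι ι ℝ) (w : ι → ℝ) (hw : ∀ i, 0 ≤ w i)
    (hA : ∀ i j, 0 ≤ A i j) (hA1 : ∀ i, ∑ j, A i j = 1)
    (hrev : ∀ i j, w i * A i j = w j * A j i)
    (ν : σ → ℝ) (hν : ∀ s, 0 ≤ ν s) (c : σ → ι → ℝ) (hc : ∀ s i, c s i = 0 ∨ c s i = 1)
    (T : ℕ) : ∑ r ∈ range T, gg A w ν c r ≤ 328 * Psi A w ν c T := by
  rw [sum_gg_eq A w hA1 hrev ν c T]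
  have e : 328 * Psi A w ν c T = ∑ j, w j * (328 * ZZ2 A ν c j T j) := by
    show 328 * (∑ i, ∑ l, w i * (A ^ T) i l * DD ν c i l ^ 2) =
      ∑ j, w j * (328 * ∑ l, (A ^ T) j l * DD ν c j l ^ 2)
    rw [Finset.mul_sum]
    refine Finset.sum_congr rfl fun i _ => ?_
    rw [Finset.mul_sum, Finset.mul_sum, Finset.mul_sum]
    exact Finset.sum_congr rfl fun l _ => by ring
  rw [e]
  exact Finset.sum_le_sum fun j _ =>
    mul_le_mul_of_nonneg_left (GG_le A hA hA1 ν hν c hc j T j) (hw j)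

/-- The cut-space form of metric Markov cotype 2. -/
theorem cut_cotype (A : Matrix ι ι ℝ) (w : ι → ℝ) (hw : ∀ i, 0 ≤ w i)
    (hA : ∀ i j, 0 ≤ A i j) (hA1 : ∀ i, ∑ j, A i j = 1)
    (hrev : ∀ i j, w i * A i j = w j * A j i)
    (ν : σ → ℝ) (hν : ∀ s, 0 ≤ ν s) (c : σ → ι → ℝ) (hc : ∀ s i, c s i = 0 ∨ c s i = 1)
    (t : ℕ) (ht : 1 ≤ t) :
    ∑ i, w i * dnu ν (fun s => c s i) (phi A c t i) ^ 2 +
        (t : ℝ) * ∑ i, ∑ j, w i * A i j * dnu ν (phi A c t i) (phi A c t j) ^ 2 ≤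
      3024 * ∑ i, ∑ j, w i * ((1 / (t : ℝ)) • ∑ s ∈ Icc 1 t, A ^ s) i j * DD ν c i j ^ 2 := by
  rw [rhs_eq A w ν c t]
  have h1 := first_term A w hw hA hA1 ν hν c hc t ht
  have h2 := second_term A w hw hA hrev ν hν c t ht
  have h3 := sum_gg_le A w hw hA hA1 hrev ν hν c hc t
  have h4 := Psi_le A w hw hA hA1 hrev ν hν c t ht
  have h5 : 0 ≤ (1 / (t : ℝ)) * ∑ s ∈ Icc 1 t, Psi A w ν c s :=
    mul_nonneg (by positivity) (Finset.sum_nonneg fun s _ => Psi_nonneg A w hw hA ν c s)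
  linarith

end Crest.Agent.MC
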